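import Vale.Agent.P284.H359.Moll

/-!
# Friedrichs' commutator lemma and the local energy inequality of an `L²` solution
(adapted from parts 1-4 of P245/H464/ESA: a finite family of directions `e i`, coefficients `A i j` with
compact support, general drift `b j`)
-/

set_option linter.all false

open MeasureTheory Filter Topology
open scoped ContDiff

namespace Vale.Agent.P284.H359.Fr

open Vale.Agent.P284.H359.Moll

variable {E : Type*} [NormedAddCommGroup E] [NormedSpace ℝ E] [FiniteDimensional ℝ E]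
  [MeasureSpace E] [BorelSpace E] [Measure.IsAddHaarMeasure (volume : Measure E)]
  {ι : Type*} [Fintype ι]

/-- directional derivative -/
noncomputable def pd (v : E) (f : E → ℝ) (x : E) : ℝ := fderiv ℝ f x v

/-- test functions -/
def Test (f : E → ℝ) : Prop := ContDiff ℝ ∞ f ∧ HasCompactSupport f

/-- coefficient data -/
structure Dat (e : ι → E) (b : ι → E → ℝ) (A : E → ι → ι → ℝ) : Prop where
  norm : ∀ i, ‖e i‖ ≤ 1
  bcont : ∀ j, Continuous (b j)
  bcs : ∀ j, HasCompactSupport (b j)
  acont : ∀ i j, Continuous (fun x => A x i j)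
  acs : ∀ i j, HasCompactSupport (fun x => A x i j)
  symm : ∀ x i j, A x i j = A x j i
  lip : ∃ K : ℝ, 0 ≤ K ∧ ∀ x y i j, |A x i j - A y i j| ≤ K * ‖x - y‖
  div : ∀ f : E → ℝ, Test f → ∀ j, ∫ x, ∑ i, A x i j * pd (e i) f x = ∫ x, f x * b j x

lemma loc_mul {u w : E → ℝ} (hu : LocallyIntegrable u volume) (hw : Continuous w) :
    LocallyIntegrable (fun x => u x * w x) volume := LocallyIntegrable.mul_continuous hw hu

/-- `L²` function times a continuous function with compact support -/
lemma memLp_mul {u w : E → ℝ} (hu : MemLp u 2 (volume : Measure E)) (hw : Continuous w)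
    (hc : HasCompactSupport w) :
    MemLp (fun x => u x * w x) 2 (volume : Measure E) := by
  obtain ⟨B, hB⟩ := hc.exists_bound_of_continuous hw
  refine MemLp.of_le_mul (c := B) hu (hu.1.mul hw.aestronglyMeasurable)
    (Eventually.of_forall fun x => ?_)
  rw [norm_mul, mul_comm]
  exact mul_le_mul_of_nonneg_right (hB x) (norm_nonneg _)

lemma integrable_mul' {u w : E → ℝ} (hu : MemLp u 2 (volume : Measure E)) (hw : Continuous w)
    (hc : HasCompactSupport w) : Integrable (fun x => u x * w x) :=
  MemLp.integrable_mul (p := 2) (q := 2) hu (hw.memLp_of_hasCompactSupport hc)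

/-- the commutator -/
noncomputable def err (e : ι → E) (b : ι → E → ℝ) (A : E → ι → ι → ℝ) (η u : E → ℝ) (j : ι)
    (x : E) : ℝ :=
  (∑ i, (pd (e i) (mo η (fun y => u y * A y i j)) x - A x i j * pd (e i) (mo η u) x))
    + mo η (fun y => u y * b j y) x

variable {e : ι → E} {b : ι → E → ℝ} {A : E → ι → ι → ℝ}

lemma err_sub (D : Dat e b A) {ε : ℝ} {η : E → ℝ} (hη : IsMol ε η) {u v : E → ℝ}
    (hu : LocallyIntegrable u volume) (hv : LocallyIntegrable v volume) (j : ι) (x : E) :
    err e b A η (fun y => u y - v y) j x = err e b A η u j x - err e b A η v j x := by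
  have hw : ∀ (w : E → ℝ), Continuous w → ∀ (ρ : E → ℝ), Continuous ρ → HasCompactSupport ρ →
      mo ρ (fun y => (u y - v y) * w y) x = mo ρ (fun y => u y * w y) x
        - mo ρ (fun y => v y * w y) x := by
    intro w hw ρ hρ hρc
    rw [← mo_sub hρ hρc (loc_mul hu hw) (loc_mul hv hw)]
    congr 1
    funext y
    ring
  have hs : ∀ i : ι, Continuous (fun z => fderiv ℝ η z (e i)) := fun i =>
    (hη.contDiff.continuous_fderiv (by simp)).clm_apply continuous_const
  have hsc : ∀ i : ι, HasCompactSupport (fun z => fderiv ℝ η z (e i)) := fun i =>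
    (hη.hcs.fderiv ℝ).comp_left (g := fun L : E →L[ℝ] ℝ => L (e i)) (by simp)
  have huv : LocallyIntegrable (fun y => u y - v y) volume := hu.sub hv
  unfold err pd
  rw [hw _ (D.bcont j) η hη.contDiff.continuous hη.hcs]
  have h1 : ∀ i, fderiv ℝ (mo η fun y => (u y - v y) * A y i j) x (e i) =
      fderiv ℝ (mo η fun y => u y * A y i j) x (e i)
        - fderiv ℝ (mo η fun y => v y * A y i j) x (e i) := by
    intro i
    rw [fderiv_mo hη.contDiff hη.hcs (loc_mul huv (D.acont i j)),
      fderiv_mo hη.contDiff hη.hcs (loc_mul hu (D.acont i j)),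
      fderiv_mo hη.contDiff hη.hcs (loc_mul hv (D.acont i j)),
      hw _ (D.acont i j) _ (hs i) (hsc i)]
  have h2 : ∀ i, fderiv ℝ (mo η fun y => u y - v y) x (e i) =
      fderiv ℝ (mo η u) x (e i) - fderiv ℝ (mo η v) x (e i) := by
    intro i
    rw [fderiv_mo hη.contDiff hη.hcs huv, fderiv_mo hη.contDiff hη.hcs hu,
      fderiv_mo hη.contDiff hη.hcs hv, mo_sub (hs i) (hsc i) hu hv]
  simp only [h1, h2]
  have h3 : (∑ i, (fderiv ℝ (mo η fun y => u y * A y i j) x (e i)
        - fderiv ℝ (mo η fun y => v y * A y i j) x (e i)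
        - A x i j * (fderiv ℝ (mo η u) x (e i) - fderiv ℝ (mo η v) x (e i)))) =
      (∑ i, (fderiv ℝ (mo η fun y => u y * A y i j) x (e i) - A x i j * fderiv ℝ (mo η u) x (e i)))
      - ∑ i, (fderiv ℝ (mo η fun y => v y * A y i j) x (e i)
          - A x i j * fderiv ℝ (mo η v) x (e i)) := by
    rw [← Finset.sum_sub_distrib]
    refine Finset.sum_congr rfl fun i _ => ?_
    ring
  rw [h3]
  ring

lemma err_cont (D : Dat e b A) {ε : ℝ} {η : E → ℝ} (hη : IsMol ε η) {u : E → ℝ}
    (hu : LocallyIntegrable u volume) (j : ι) : Continuous (err e b A η u j) := by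
  have h1 : ∀ w : E → ℝ, LocallyIntegrable w volume → ∀ i, Continuous (pd (e i) (mo η w)) := by
    intro w hw i
    exact ((contDiff_mo hη.contDiff hη.hcs hw).continuous_fderiv (by simp)).clm_apply
      continuous_const
  unfold err
  refine Continuous.add (continuous_finsetSum _ fun i _ => ?_) ?_
  · exact (h1 _ (loc_mul hu (D.acont i j)) i).sub ((D.acont i j).mul (h1 _ hu i))
  · exact (contDiff_mo hη.contDiff hη.hcs (loc_mul hu (D.bcont j))).continuous

lemma fderiv_mol_zero {ε : ℝ} {η : E → ℝ} (hη : IsMol ε η) {z : E} (hz : ε ≤ ‖z‖) :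
    fderiv ℝ η z = 0 := by
  refine IsLocalMin.fderiv_eq_zero ?_
  refine Eventually.of_forall fun y => ?_
  rw [hη.supp z hz]
  exact hη.nonneg y

/-- pointwise bound of the commutator -/
lemma err_bound (D : Dat e b A) {ε : ℝ} (hε : 0 < ε) {K S : ℝ} (hK : 0 ≤ K) (hS : 0 ≤ S)
    (hlip : ∀ x y i j, |A x i j - A y i j| ≤ K * ‖x - y‖) (hr : ∀ j y, |b j y| ≤ S)
    {u : E → ℝ} (hu : LocallyIntegrable u volume) (j : ι) (x : E) :
    |err e b A (stdM ε) u j x| ≤
      mo (fun z => Fintype.card ι * K * kerM ε z + S * stdM ε z) (fun y => ‖u y‖) x := by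
  have hη : IsMol ε (stdM ε : E → ℝ) := stdM_isMol hε
  have hs : ∀ i : ι, Continuous (fun z => fderiv ℝ (stdM ε : E → ℝ) z (e i)) := fun i =>
    (hη.contDiff.continuous_fderiv (by simp)).clm_apply continuous_const
  have hsc : ∀ i : ι, HasCompactSupport (fun z => fderiv ℝ (stdM ε : E → ℝ) z (e i)) :=
    fun i => (hη.hcs.fderiv ℝ).comp_left (g := fun L : E →L[ℝ] ℝ => L (e i)) (by simp)
  have hun : LocallyIntegrable (fun y => ‖u y‖) volume := fun z => (hu z).norm
  have ik : Integrable (fun y => kerM ε (x - y) • ‖u y‖) :=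
    integrable_mo (kerM_cont hε) (kerM_hcs hε) hun x
  have is : Integrable (fun y => stdM ε (x - y) • ‖u y‖) :=
    integrable_mo hη.contDiff.continuous hη.hcs hun x
  have hterm : ∀ i : ι, |pd (e i) (mo (stdM ε) (fun y => u y * A y i j)) x
      - A x i j * pd (e i) (mo (stdM ε) u) x| ≤ K * mo (kerM ε) (fun y => ‖u y‖) x := by
    intro i
    unfold pd
    rw [fderiv_mo hη.contDiff hη.hcs (loc_mul hu (D.acont i j)),
      fderiv_mo hη.contDiff hη.hcs hu]
    have i1 := integrable_mo (hs i) (hsc i) (loc_mul hu (D.acont i j)) x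
    have i2 := integrable_mo (hs i) (hsc i) hu x
    have e1 : mo (fun z => fderiv ℝ (stdM ε : E → ℝ) z (e i)) (fun y => u y * A y i j) x
        - A x i j * mo (fun z => fderiv ℝ (stdM ε : E → ℝ) z (e i)) u x =
        ∫ y, fderiv ℝ (stdM ε : E → ℝ) (x - y) (e i) * (A y i j - A x i j) * u y := by
      unfold mo
      rw [← integral_const_mul, ← integral_sub i1 (i2.const_mul _)]
      refine integral_congr_ae (Eventually.of_forall fun y => ?_)
      simp only [smul_eq_mul]
      ring
    rw [e1]
    unfold mo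
    rw [← integral_const_mul]
    rw [← Real.norm_eq_abs]
    refine norm_integral_le_of_norm_le (ik.const_mul K) (Eventually.of_forall fun y => ?_)
    simp only [smul_eq_mul, norm_mul, Real.norm_eq_abs]
    have h1 := hlip y x i j
    have h2 : |fderiv ℝ (stdM ε : E → ℝ) (x - y) (e i)| ≤
        ‖fderiv ℝ (stdM ε : E → ℝ) (x - y)‖ := by
      have h3 := (fderiv ℝ (stdM ε : E → ℝ) (x - y)).le_opNorm (e i)
      refine h3.trans ?_
      have := D.norm i
      exact mul_le_of_le_one_right (norm_nonneg _) this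
    rw [norm_sub_rev] at h1
    calc _ ≤ ‖fderiv ℝ (stdM ε : E → ℝ) (x - y)‖ * (K * ‖x - y‖) * |u y| := by
          refine mul_le_mul_of_nonneg_right ?_ (abs_nonneg _)
          exact mul_le_mul h2 h1 (abs_nonneg _) (norm_nonneg _)
      _ = _ := by unfold kerM; ring
  have hlast : |mo (stdM ε) (fun y => u y * b j y) x| ≤ S * mo (stdM ε) (fun y => ‖u y‖) x := by
    unfold mo
    rw [← integral_const_mul]
    rw [← Real.norm_eq_abs]
    refine norm_integral_le_of_norm_le (is.const_mul S) (Eventually.of_forall fun y => ?_)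
    simp only [smul_eq_mul, norm_mul, Real.norm_eq_abs]
    rw [abs_of_nonneg (hη.nonneg _)]
    have h1 := hr j y
    have h2 := hη.nonneg (x - y)
    calc stdM ε (x - y) * (|u y| * |b j y|) ≤ stdM ε (x - y) * (|u y| * S) := by
          gcongr
      _ = _ := by ring
  have e2 : mo (fun z => Fintype.card ι * K * kerM ε z + S * stdM ε z) (fun y => ‖u y‖) x =
      Fintype.card ι * (K * mo (kerM ε) (fun y => ‖u y‖) x)
        + S * mo (stdM ε) (fun y => ‖u y‖) x := by
    unfold mo
    rw [← integral_const_mul, ← integral_const_mul, ← integral_const_mul,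
      ← integral_add ((ik.const_mul _).const_mul _) (is.const_mul _)]
    refine integral_congr_ae (Eventually.of_forall fun y => ?_)
    simp only [smul_eq_mul]
    ring
  rw [e2]
  unfold err
  refine (abs_add_le _ _).trans (add_le_add ?_ hlast)
  refine (Finset.abs_sum_le_sum_abs _ _).trans ?_
  refine (Finset.sum_le_sum fun i _ => hterm i).trans ?_
  simp

/-- `L²` bound of the commutator -/
lemma err_nsq (D : Dat e b A) : ∃ Cb : ℝ, 0 ≤ Cb ∧ ∀ ε : ℝ, 0 < ε →
    ∀ u : E → ℝ, MemLp u 2 (volume : Measure E) → ∀ j,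
      MemLp (err e b A (stdM ε) u j) 2 (volume : Measure E) ∧
      nsq (err e b A (stdM ε) u j) ≤ Cb * nsq u := by
  obtain ⟨K, hK, hlip⟩ := D.lip
  have hS : ∃ S : ℝ, 0 ≤ S ∧ ∀ j y, |b j y| ≤ S := by
    have h1 : ∀ j : ι, ∃ S : ℝ, ∀ y, ‖b j y‖ ≤ S :=
      fun j => (D.bcs j).exists_bound_of_continuous (D.bcont j)
    choose S hS using h1
    refine ⟨∑ j, |S j|, Finset.sum_nonneg fun j _ => abs_nonneg _, fun j y => ?_⟩
    refine (hS j y).trans ((le_abs_self _).trans ?_)
    exact Finset.single_le_sum (f := fun j => |S j|) (fun j _ => abs_nonneg _) (Finset.mem_univ j)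
  obtain ⟨S, hS0, hr⟩ := hS
  set D1 : ℝ := ∫ z : E, kerM 1 z with hD1
  have hD1' : 0 ≤ D1 := integral_nonneg fun z => kerM_nonneg 1 z
  refine ⟨(Fintype.card ι * K * D1 + S) ^ 2, by positivity, fun ε hε u hu j => ?_⟩
  have hη : IsMol ε (stdM ε : E → ℝ) := stdM_isMol hε
  have hκ : Continuous (fun z : E => Fintype.card ι * K * kerM ε z + S * stdM ε z) :=
    (continuous_const.mul (kerM_cont hε)).add (continuous_const.mul hη.contDiff.continuous)
  have hκc : HasCompactSupport (fun z : E => Fintype.card ι * K * kerM ε z + S * stdM ε z) :=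
    ((kerM_hcs hε).mul_left).add (hη.hcs.mul_left)
  have hκ0 : ∀ z : E, 0 ≤ Fintype.card ι * K * kerM ε z + S * stdM ε z := fun z => by
    have h1 := kerM_nonneg ε z
    have h2 := hη.nonneg z
    positivity
  have hm : AEStronglyMeasurable (err e b A (stdM ε) u j) volume :=
    (err_cont D hη (locInt hu) j).aestronglyMeasurable
  have hmass : ∫ z : E, (Fintype.card ι * K * kerM ε z + S * stdM ε z)
      = Fintype.card ι * K * D1 + S := by
    rw [integral_add (((kerM_cont hε).integrable_of_hasCompactSupport (kerM_hcs hε)).const_mul _)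
      ((hη.contDiff.continuous.integrable_of_hasCompactSupport hη.hcs).const_mul _),
      integral_const_mul, integral_const_mul, hη.one, kerM_int hε, mul_one]
  have h := nsq_le_mo hκ hκc hκ0 hu (w := err e b A (stdM ε) u j) hm ?_
  · rw [hmass] at h
    exact h
  · intro x
    exact err_bound D hε hK hS0 hlip hr (locInt hu) j x

lemma test_pd {g : E → ℝ} (hg : Test g) (v : E) : Test (pd v g) := by
  constructor
  · exact ContDiff.clm_apply (hg.1.fderiv_right (m := (⊤ : ℕ∞)) (by simp)) contDiff_const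
  · exact (hg.2.fderiv ℝ).comp_left (g := fun L : E →L[ℝ] ℝ => L v) (by simp)

lemma test_loc {g : E → ℝ} (hg : Test g) : LocallyIntegrable g volume :=
  hg.1.continuous.locallyIntegrable

lemma test_memLp {g : E → ℝ} (hg : Test g) : MemLp g 2 (volume : Measure E) :=
  hg.1.continuous.memLp_of_hasCompactSupport hg.2

/-- the commutator on smooth functions -/
lemma err_smooth (D : Dat e b A) {ε : ℝ} {η : E → ℝ} (hη : IsMol ε η) {g : E → ℝ} (hg : Test g)
    (j : ι) (x : E) :
    err e b A η g j x =
      ∑ i, (mo η (fun y => A y i j * pd (e i) g y) x - A x i j * mo η (pd (e i) g) x) := by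
  have hf : Test (fun y => η (x - y) * g y) := by
    constructor
    · exact (hη.contDiff.comp (contDiff_const.sub contDiff_id)).mul hg.1
    · exact hg.2.mul_left
  have hs : ∀ i : ι, Continuous (fun z => fderiv ℝ η z (e i)) := fun i =>
    (hη.contDiff.continuous_fderiv (by simp)).clm_apply continuous_const
  have hsc : ∀ i : ι, HasCompactSupport (fun z => fderiv ℝ η z (e i)) := fun i =>
    (hη.hcs.fderiv ℝ).comp_left (g := fun L : E →L[ℝ] ℝ => L (e i)) (by simp)
  have hd : ∀ i y, pd (e i) (fun y => η (x - y) * g y) y =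
      η (x - y) * pd (e i) g y - fderiv ℝ η (x - y) (e i) * g y := by
    intro i y
    have h1 : HasFDerivAt (fun y => η (x - y)) (-(fderiv ℝ η (x - y))) y := by
      have h2 : HasFDerivAt (fun y : E => x - y) (-(ContinuousLinearMap.id ℝ E)) y :=
        (hasFDerivAt_id y).const_sub x
      have h3 := ((hη.contDiff.differentiable (by simp)) (x - y)).hasFDerivAt.comp y h2
      refine h3.congr_fderiv ?_
      ext v; simp
    have h4 : HasFDerivAt g (fderiv ℝ g y) y :=
      ((hg.1.differentiable (by simp)) y).hasFDerivAt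
    have h5 := (h1.mul h4).fderiv
    unfold pd
    have h6 : fderiv ℝ (fun y => η (x - y) * g y) y = _ := h5
    rw [h6]
    simp
    ring
  have hl : ∀ i, LocallyIntegrable (fun y => g y * A y i j) volume := fun i =>
    loc_mul (test_loc hg) (D.acont i j)
  have hl2 : ∀ i, LocallyIntegrable (fun y => A y i j * pd (e i) g y) volume := fun i =>
    ((D.acont i j).mul (test_pd hg (e i)).1.continuous).locallyIntegrable
  have i1 : ∀ i, Integrable (fun y => fderiv ℝ η (x - y) (e i) • (g y * A y i j)) := fun i =>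
    integrable_mo (hs i) (hsc i) (hl i) x
  have i2 : ∀ i, Integrable (fun y => η (x - y) • (A y i j * pd (e i) g y)) := fun i =>
    integrable_mo hη.contDiff.continuous hη.hcs (hl2 i) x
  have key : mo η (fun y => g y * b j y) x =
      ∑ i, (mo η (fun y => A y i j * pd (e i) g y) x
        - mo (fun z => fderiv ℝ η z (e i)) (fun y => g y * A y i j) x) := by
    have e1 := D.div _ hf j
    have e2 : mo η (fun y => g y * b j y) x = ∫ y, (η (x - y) * g y) * b j y := by
      unfold mo
      refine integral_congr_ae (Eventually.of_forall fun y => ?_)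
      simp only [smul_eq_mul]; ring
    rw [e2, ← e1]
    have e3 : ∀ i, mo η (fun y => A y i j * pd (e i) g y) x
        - mo (fun z => fderiv ℝ η z (e i)) (fun y => g y * A y i j) x =
        ∫ y, (η (x - y) • (A y i j * pd (e i) g y) - fderiv ℝ η (x - y) (e i) • (g y * A y i j)) := by
      intro i
      unfold mo
      rw [← integral_sub (i2 i) (i1 i)]
    simp only [e3]
    rw [← integral_finsetSum Finset.univ (f := fun i y => η (x - y) • (A y i j * pd (e i) g y)
      - fderiv ℝ η (x - y) (e i) • (g y * A y i j)) (fun i _ => (i2 i).sub (i1 i))]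
    refine integral_congr_ae (Eventually.of_forall fun y => ?_)
    simp only [hd, smul_eq_mul]
    refine Finset.sum_congr rfl fun i _ => ?_
    ring
  unfold err
  rw [key, ← Finset.sum_add_distrib]
  refine Finset.sum_congr rfl fun i _ => ?_
  have e4 : pd (e i) (mo η fun y => g y * A y i j) x =
      mo (fun z => fderiv ℝ η z (e i)) (fun y => g y * A y i j) x := by
    unfold pd
    rw [fderiv_mo hη.contDiff hη.hcs (hl i)]
  have e5 : pd (e i) (mo η g) x = mo η (pd (e i) g) x := by
    unfold pd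
    rw [fderiv_mo' hη.contDiff.continuous.locallyIntegrable (hg.1.of_le (by simp)) hg.2]
  rw [e4, e5]
  ring

/-- mollifiers of radius `d / (k + 1)` -/
noncomputable def seqD (d : ℝ) (k : ℕ) : E → ℝ := stdM (d / ((k : ℝ) + 1))

lemma seqD_isMol {d : ℝ} (hd : 0 < d) (k : ℕ) : IsMol (d / ((k : ℝ) + 1)) (seqD d k : E → ℝ) :=
  stdM_isMol (by positivity)

/-- mollification converges -/
lemma moll {d : ℝ} (hd : 0 < d) {f : E → ℝ} (hf : MemLp f 2 (volume : Measure E)) :
    L2t (fun k => mo (seqD d k) f) f := by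
  refine ⟨fun k => (nsq_mo_le (seqD_isMol hd k) hf).1, hf, ?_⟩
  rw [Metric.tendsto_atTop]
  intro δ hδ
  obtain ⟨ε₀, hε₀, h⟩ := mo_approx hf (show 0 < δ / 2 by positivity)
  obtain ⟨N, hN⟩ := exists_nat_one_div_lt (div_pos hε₀ hd)
  refine ⟨N, fun k hk => ?_⟩
  have h1 : d / ((k : ℝ) + 1) ≤ ε₀ := by
    have h2 : 1 / ((k : ℝ) + 1) ≤ 1 / ((N : ℝ) + 1) := by gcongr
    have h3 : 1 / ((k : ℝ) + 1) < ε₀ / d := lt_of_le_of_lt h2 hN
    rw [div_lt_div_iff₀ (by positivity) hd] at h3
    rw [div_le_iff₀ (by positivity)]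
    linarith
  have h2 := h _ h1 (seqD d k) (seqD_isMol hd k)
  rw [Real.dist_eq, sub_zero, abs_of_nonneg (nsq_nonneg _)]
  linarith

/-- convergence on smooth functions -/
lemma err_lim_smooth (D : Dat e b A) {d : ℝ} (hd : 0 < d) {g : E → ℝ} (hg : Test g) (j : ι) :
    L2t (fun k => err e b A (seqD d k) g j) (fun _ => 0) := by
  have h1 : ∀ i ∈ (Finset.univ : Finset ι), L2t (fun k x =>
        mo (seqD d k) (fun y => A y i j * pd (e i) g y) x -
      A x i j * mo (seqD d k) (pd (e i) g) x)
      (fun _ => 0) := by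
    intro i _
    have m1 : MemLp (fun y => A y i j * pd (e i) g y) 2 (volume : Measure E) :=
      ((D.acont i j).mul (test_pd hg (e i)).1.continuous).memLp_of_hasCompactSupport
        (test_pd hg (e i)).2.mul_left
    have h2 := moll hd m1
    obtain ⟨S, hS⟩ := (D.acs i j).exists_bound_of_continuous (D.acont i j)
    have h3 := (moll hd (test_memLp (test_pd hg (e i)))).bmul
      (w := fun x => A x i j) (D.acont i j).aestronglyMeasurable (B := S) hS
    have h4 := h2.sub h3
    simpa using h4
  have h5 := L2t.sum h1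
  have e1 : (fun (k : ℕ) (x : E) => ∑ i, (mo (seqD d k) (fun y => A y i j * pd (e i) g y) x -
      A x i j * mo (seqD d k) (pd (e i) g) x)) =
      fun k => err e b A (seqD d k) g j := by
    funext k x
    rw [err_smooth D (seqD_isMol hd k) hg]
  rw [e1] at h5
  simpa using h5

/-- a mollified compactly supported `L²` function is a test function -/
lemma test_mo {ε : ℝ} {η : E → ℝ} (hη : IsMol ε η) {f : E → ℝ} (hf : LocallyIntegrable f volume)
    (hc : HasCompactSupport f) : Test (mo η f) := by
  refine ⟨contDiff_mo hη.contDiff hη.hcs hf, ?_⟩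
  rw [mo_eq_conv]
  exact hc.convolution _ hη.hcs

/-- convergence of the commutator on compactly supported `L²` functions -/
lemma err_lim (D : Dat e b A) {d : ℝ} (hd : 0 < d) {f : E → ℝ}
    (hf : MemLp f 2 (volume : Measure E)) (hfc : HasCompactSupport f) (j : ι) :
    L2t (fun k => err e b A (seqD d k) f j) (fun _ => 0) := by
  obtain ⟨Cb, hCb, hb⟩ := err_nsq D
  have hk0 : ∀ k : ℕ, 0 < d / ((k : ℝ) + 1) := fun k => by positivity
  have hmem : ∀ k, MemLp (err e b A (seqD d k) f j) 2
      (volume : Measure E) := fun k => (hb _ (hk0 k) f hf j).1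
  refine ⟨hmem, MemLp.zero', ?_⟩
  rw [Metric.tendsto_atTop]
  intro δ hδ
  have hmoll := (moll hd hf).lim
  rw [Metric.tendsto_atTop] at hmoll
  obtain ⟨m, hm⟩ := hmoll (δ / (4 * (Cb + 1))) (by positivity)
  have hm' := hm m le_rfl
  rw [Real.dist_eq, sub_zero, abs_of_nonneg (nsq_nonneg _)] at hm'
  have hg : Test (mo (seqD d m) f) := test_mo (seqD_isMol hd m) (locInt hf) hfc
  have hs := (err_lim_smooth D hd hg j).lim
  rw [Metric.tendsto_atTop] at hs
  obtain ⟨N, hN⟩ := hs (δ / 4) (by positivity)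
  refine ⟨N, fun k hk => ?_⟩
  have h1 := hN k hk
  rw [Real.dist_eq, sub_zero, abs_of_nonneg (nsq_nonneg _)] at h1 ⊢
  simp only [sub_zero] at h1 ⊢
  have hgm := test_memLp hg
  have hdd : MemLp (fun y => f y - mo (seqD d m) f y) 2 (volume : Measure E) := hf.sub hgm
  have h2 := hb _ (hk0 k) _ hdd j
  have h3 := nsq_add_le h2.1 (hb _ (hk0 k) _ hgm j).1
  have e' : (fun x => err e b A (stdM (d / ((k : ℝ) + 1))) (fun y => f y - mo (seqD d m) f y) j x
      + err e b A (stdM (d / ((k : ℝ) + 1))) (mo (seqD d m) f) j x) =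
      fun x => err e b A (seqD d k) f j x := by
    funext x
    rw [err_sub D (stdM_isMol (hk0 k)) (locInt hf) (locInt hgm)]
    unfold seqD
    ring
  rw [e'] at h3
  have h4 : nsq (fun y => f y - mo (seqD d m) f y) = nsq (fun y => mo (seqD d m) f y - f y) := by
    unfold nsq
    refine integral_congr_ae (Eventually.of_forall fun x => ?_)
    simp only [norm_sub_rev]
  have h5 : Cb * nsq (fun y => f y - mo (seqD d m) f y) ≤ δ / 4 := by
    rw [h4]
    have h6 : nsq (fun y => mo (seqD d m) f y - f y) ≤ δ / (4 * (Cb + 1)) := hm'.le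
    calc Cb * nsq (fun y => mo (seqD d m) f y - f y) ≤ (Cb + 1) * (δ / (4 * (Cb + 1))) :=
          mul_le_mul (by linarith) h6 (nsq_nonneg _) (by linarith)
      _ = δ / 4 := by field_simp
  have h7 : nsq (err e b A (stdM (d / ((k : ℝ) + 1))) (mo (seqD d m) f) j) < δ / 4 := h1
  have h8 := h2.2
  linarith

end Vale.Agent.P284.H359.Fr
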