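import Vale.Agent.P284.H359.Fried

/-!
# The tested equation and the local energy inequality
-/

set_option linter.all false

open MeasureTheory Filter Topology
open scoped ContDiff

namespace Vale.Agent.P284.H359.Fr

open Vale.Agent.P284.H359.Moll

variable {E : Type*} [NormedAddCommGroup E] [NormedSpace ℝ E] [FiniteDimensional ℝ E]
  [MeasureSpace E] [BorelSpace E] [Measure.IsAddHaarMeasure (volume : Measure E)]
  {ι : Type*} [Fintype ι]
  {e : ι → E} {b : ι → E → ℝ} {A : E → ι → ι → ℝ}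

lemma pd_mo {ρ : E → ℝ} (hρ : LocallyIntegrable ρ volume) {g : E → ℝ} (hg : Test g) (v : E) :
    pd v (mo ρ g) = mo ρ (pd v g) := by
  funext x
  unfold pd
  rw [fderiv_mo' hρ (hg.1.of_le (by simp)) hg.2]

lemma integrable_mul_test {p g : E → ℝ} (hp : Integrable p) (hg : Continuous g)
    (hc : HasCompactSupport g) : Integrable (fun x => p x * g x) := by
  obtain ⟨B, hB⟩ := hc.exists_bound_of_continuous hg
  exact Integrable.mul_bdd (c := B) hp hg.aestronglyMeasurable (Eventually.of_forall hB)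

lemma integrable_cont_test {p g : E → ℝ} (hp : Continuous p) (hg : Continuous g)
    (hc : HasCompactSupport g) : Integrable (fun x => p x * g x) :=
  (hp.mul hg).integrable_of_hasCompactSupport hc.mul_left

/-- the tested equation -/
lemma test_eq (D : Dat e b A) {r : E → ℝ} (hr : Continuous r) (hrs : HasCompactSupport r) {ε : ℝ}
    (hε : 0 < ε) {f : E → ℝ} (hf : MemLp f 2 (volume : Measure E)) {G : E → ℝ} (hG : Test G)
    (e0 : ∫ x, f x * (r x * mo (stdM ε) G x - (∑ i, ∑ j, A x i j * pd (e i) (pd (e j) (mo (stdM ε) G)) x)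
        + ∑ j, b j x * pd (e j) (mo (stdM ε) G) x) = 0) :
    ∫ x, (mo (stdM ε) (fun y => f y * r y) x * G x +
      ∑ j, (err e b A (stdM ε) f j x + ∑ i, A x i j * pd (e i) (mo (stdM ε) f) x) * pd (e j) G x) = 0 := by
  have hη : IsMol ε (stdM ε : E → ℝ) := stdM_isMol hε
  have hηl : LocallyIntegrable (stdM ε : E → ℝ) volume := hη.contDiff.continuous.locallyIntegrable
  have hfl := locInt hf
  have ip : ∀ w : E → ℝ, Continuous w → HasCompactSupport w → Integrable (fun y => f y * w y) :=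
    fun w hw hc => integrable_mul' hf hw hc
  have hF : Test (mo (stdM ε) G) := test_mo hη (test_loc hG) hG.2
  have hG1 : ∀ j, Test (pd (e j) G) := fun j => test_pd hG (e j)
  have hG2 : ∀ i j, Test (pd (e i) (pd (e j) G)) := fun i j => test_pd (hG1 j) (e i)
  have ej : ∀ j, pd (e j) (mo (stdM ε) G) = mo (stdM ε) (pd (e j) G) := fun j => pd_mo hηl hG (e j)
  have eij : ∀ i j, pd (e i) (pd (e j) (mo (stdM ε) G)) = mo (stdM ε) (pd (e i) (pd (e j) G)) := fun i j => by
    rw [ej, pd_mo hηl (hG1 j)]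
  have tmo : ∀ g : E → ℝ, Test g → Test (mo (stdM ε) g) := fun g hg =>
    test_mo hη (test_loc hg) hg.2
  -- the integrals
  have J0 : Integrable (fun x => f x * r x * mo (stdM ε) G x) :=
    integrable_mul_test (ip r hr hrs) hF.1.continuous hF.2
  have J2 : ∀ i j, Integrable (fun x => f x * A x i j * mo (stdM ε) (pd (e i) (pd (e j) G)) x) := fun i j =>
    integrable_mul_test (ip _ (D.acont i j) (D.acs i j)) (tmo _ (hG2 i j)).1.continuous (tmo _ (hG2 i j)).2
  have J1 : ∀ j, Integrable (fun x => f x * b j x * mo (stdM ε) (pd (e j) G) x) := fun j =>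
    integrable_mul_test (ip _ (D.bcont j) (D.bcs j)) (tmo _ (hG1 j)).1.continuous (tmo _ (hG1 j)).2
  have e1 : (∫ x, f x * r x * mo (stdM ε) G x)
      - (∑ i, ∑ j, ∫ x, f x * A x i j * mo (stdM ε) (pd (e i) (pd (e j) G)) x)
      + ∑ j, ∫ x, f x * b j x * mo (stdM ε) (pd (e j) G) x = 0 := by
    rw [← e0]
    have s2 : (∑ i, ∑ j, ∫ x, f x * A x i j * mo (stdM ε) (pd (e i) (pd (e j) G)) x) =
        ∫ x, ∑ i, ∑ j, f x * A x i j * mo (stdM ε) (pd (e i) (pd (e j) G)) x := by
      rw [integral_finsetSum _ (fun i _ => integrable_finsetSum _ (fun j _ => J2 i j))]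
      refine Finset.sum_congr rfl fun i _ => ?_
      rw [integral_finsetSum _ (fun j _ => J2 i j)]
    have s1 : (∑ j, ∫ x, f x * b j x * mo (stdM ε) (pd (e j) G) x) =
        ∫ x, ∑ j, f x * b j x * mo (stdM ε) (pd (e j) G) x := by
      rw [integral_finsetSum _ (fun j _ => J1 j)]
    have I2 : Integrable (fun x => ∑ i, ∑ j, f x * A x i j * mo (stdM ε) (pd (e i) (pd (e j) G)) x) :=
      integrable_finsetSum _ (fun i _ => integrable_finsetSum _ (fun j _ => J2 i j))
    have I1 : Integrable (fun x => ∑ j, f x * b j x * mo (stdM ε) (pd (e j) G) x) :=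
      integrable_finsetSum _ (fun j _ => J1 j)
    have J02 : Integrable (fun x => f x * r x * mo (stdM ε) G x -
        ∑ i, ∑ j, f x * A x i j * mo (stdM ε) (pd (e i) (pd (e j) G)) x) := J0.sub I2
    rw [s2, s1, ← integral_sub J0 I2, ← integral_add J02 I1]
    refine integral_congr_ae (Eventually.of_forall fun x => ?_)
    simp only [eij]
    simp only [ej]
    rw [mul_add, mul_sub, Finset.mul_sum, Finset.mul_sum]
    congr 1
    · congr 1
      · ring
      · refine Finset.sum_congr rfl fun i _ => ?_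
        rw [Finset.mul_sum]
        refine Finset.sum_congr rfl fun j _ => ?_
        ring
    · refine Finset.sum_congr rfl fun j _ => ?_
      ring
  have sw : ∀ w : E → ℝ, Continuous w → HasCompactSupport w → ∀ g : E → ℝ, Test g →
      ∫ x, f x * w x * mo (stdM ε) g x = ∫ x, mo (stdM ε) (fun y => f y * w y) x * g x :=
    fun w hw hc g hg => mo_swap hη.contDiff.continuous hη.hcs (stdM_even ε) (ip w hw hc) hg.1.continuous
      hg.2
  have hq : ∀ w : E → ℝ, Continuous w → ContDiff ℝ ∞ (mo (stdM ε) (fun y => f y * w y)) :=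
    fun w hw => contDiff_mo hη.contDiff hη.hcs (loc_mul hfl hw)
  have hpdc : ∀ (u : E → ℝ), ContDiff ℝ ∞ u → ∀ i, Continuous (pd (e i) u) := fun u hu i =>
    (hu.continuous_fderiv (by simp)).clm_apply continuous_const
  have ib : ∀ i j, ∫ x, mo (stdM ε) (fun y => f y * A y i j) x * pd (e i) (pd (e j) G) x =
      - ∫ x, pd (e i) (mo (stdM ε) (fun y => f y * A y i j)) x * pd (e j) G x := fun i j =>
    ibp ((hq _ (D.acont i j)).of_le (by simp)) ((hG1 j).1.of_le (by simp)) (hG1 j).2 (e i)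
  have e2 : (∫ x, mo (stdM ε) (fun y => f y * r y) x * G x)
      + (∑ j, ∑ i, ∫ x, pd (e i) (mo (stdM ε) (fun y => f y * A y i j)) x * pd (e j) G x)
      + ∑ j, ∫ x, mo (stdM ε) (fun y => f y * b j y) x * pd (e j) G x = 0 := by
    rw [← e1, sw r hr hrs G hG]
    have s2 : (∑ i, ∑ j, ∫ x, f x * A x i j * mo (stdM ε) (pd (e i) (pd (e j) G)) x) =
        - ∑ j, ∑ i, ∫ x, pd (e i) (mo (stdM ε) (fun y => f y * A y i j)) x * pd (e j) G x := by
      rw [Finset.sum_comm, ← Finset.sum_neg_distrib]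
      refine Finset.sum_congr rfl fun j _ => ?_
      rw [← Finset.sum_neg_distrib]
      refine Finset.sum_congr rfl fun i _ => ?_
      rw [sw _ (D.acont i j) (D.acs i j) _ (hG2 i j), ib]
    have s1 : (∑ j, ∫ x, f x * b j x * mo (stdM ε) (pd (e j) G) x) =
        ∑ j, ∫ x, mo (stdM ε) (fun y => f y * b j y) x * pd (e j) G x :=
      Finset.sum_congr rfl fun j _ => sw _ (D.bcont j) (D.bcs j) _ (hG1 j)
    rw [s2, s1]
    ring
  -- put together
  have K0 : Integrable (fun x => mo (stdM ε) (fun y => f y * r y) x * G x) :=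
    integrable_cont_test (hq r hr).continuous hG.1.continuous hG.2
  have K2 : ∀ j i, Integrable
      (fun x => pd (e i) (mo (stdM ε) (fun y => f y * A y i j)) x * pd (e j) G x) := fun j i =>
    integrable_cont_test (hpdc _ (hq _ (D.acont i j)) i) (hG1 j).1.continuous (hG1 j).2
  have K1 : ∀ j, Integrable
      (fun x => mo (stdM ε) (fun y => f y * b j y) x * pd (e j) G x) := fun j =>
    integrable_cont_test (hq _ (D.bcont j)).continuous (hG1 j).1.continuous (hG1 j).2
  have s2 : (∑ j, ∑ i, ∫ x, pd (e i) (mo (stdM ε) (fun y => f y * A y i j)) x * pd (e j) G x) =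
      ∫ x, ∑ j, ∑ i, pd (e i) (mo (stdM ε) (fun y => f y * A y i j)) x * pd (e j) G x := by
    rw [integral_finsetSum _ (fun j _ => integrable_finsetSum _ (fun i _ => K2 j i))]
    refine Finset.sum_congr rfl fun j _ => ?_
    rw [integral_finsetSum _ (fun i _ => K2 j i)]
  have s1 : (∑ j, ∫ x, mo (stdM ε) (fun y => f y * b j y) x * pd (e j) G x) =
      ∫ x, ∑ j, mo (stdM ε) (fun y => f y * b j y) x * pd (e j) G x := by
    rw [integral_finsetSum _ (fun j _ => K1 j)]
  have I2 : Integrable (fun x => ∑ j, ∑ i,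
      pd (e i) (mo (stdM ε) (fun y => f y * A y i j)) x * pd (e j) G x) :=
    integrable_finsetSum _ (fun j _ => integrable_finsetSum _ (fun i _ => K2 j i))
  have I1 : Integrable (fun x => ∑ j, mo (stdM ε) (fun y => f y * b j y) x * pd (e j) G x) :=
    integrable_finsetSum _ (fun j _ => K1 j)
  have K02 : Integrable (fun x => mo (stdM ε) (fun y => f y * r y) x * G x +
      ∑ j, ∑ i, pd (e i) (mo (stdM ε) (fun y => f y * A y i j)) x * pd (e j) G x) := K0.add I2
  rw [← e2, s2, s1, ← integral_add K0 I2, ← integral_add K02 I1]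
  refine integral_congr_ae (Eventually.of_forall fun x => ?_)
  simp only []
  rw [add_assoc, ← Finset.sum_add_distrib]
  congr 1
  refine Finset.sum_congr rfl fun j _ => ?_
  unfold err
  rw [Finset.sum_sub_distrib, ← Finset.sum_mul]
  ring

lemma esa_alg (a : ι → ι → ℝ) (hs : ∀ i j, a i j = a j i) {m : ℝ} (hm : 0 < m)
    (hlow : ∀ v : ι → ℝ, m * ∑ i, v i ^ 2 ≤ ∑ i, ∑ j, a i j * v i * v j)
    (e H z' : ι → ℝ) (z h : ℝ) {M : ℝ} (hM : 0 < M) (hz : z ^ 2 ≤ M) :
    -(M / (4 * m)) * (∑ j, e j * e j) + (∑ j, e j * (z * z' j * h))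
      - (∑ i, ∑ j, a i j * z' i * z' j) * h * h ≤
    ∑ j, (e j + ∑ i, a i j * H i) * (2 * z * z' j * h + z ^ 2 * H j) := by
  obtain ⟨Z, hZ⟩ : ∃ Z : ι → ℝ, ∀ j, Z j = z' j * h + z * H j := ⟨_, fun j => rfl⟩
  have s1 : ∑ j, ∑ i, a i j * (z' i * Z j) = ∑ j, ∑ i, a i j * (Z i * z' j) := by
    rw [Finset.sum_comm]
    refine Finset.sum_congr rfl fun i _ => Finset.sum_congr rfl fun j _ => ?_
    rw [hs]; ring
  have e1 : ∑ j, (e j + ∑ i, a i j * H i) * (2 * z * z' j * h + z ^ 2 * H j) =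
      (∑ j, e j * (z * Z j)) + (∑ j, e j * (z * z' j * h)) + (∑ j, ∑ i, a i j * (Z i * Z j))
      + h * (∑ j, ∑ i, a i j * (Z i * z' j)) - h * (∑ j, ∑ i, a i j * (z' i * Z j))
      - h * h * (∑ j, ∑ i, a i j * (z' i * z' j)) := by
    simp only [Finset.mul_sum, ← Finset.sum_add_distrib, ← Finset.sum_sub_distrib]
    refine Finset.sum_congr rfl fun j _ => ?_
    rw [add_mul, Finset.sum_mul]
    have e2 : ∑ i, a i j * H i * (2 * z * z' j * h + z ^ 2 * H j) =
        (∑ i, a i j * (Z i * Z j)) + (∑ i, h * (a i j * (Z i * z' j)))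
        - (∑ i, h * (a i j * (z' i * Z j))) - ∑ i, h * h * (a i j * (z' i * z' j)) := by
      simp only [← Finset.sum_add_distrib, ← Finset.sum_sub_distrib]
      refine Finset.sum_congr rfl fun i _ => ?_
      rw [hZ, hZ]; ring
    rw [e2, hZ j]
    ring
  have s2 : ∑ j, ∑ i, a i j * (Z i * Z j) = ∑ i, ∑ j, a i j * Z i * Z j := by
    rw [Finset.sum_comm]
    refine Finset.sum_congr rfl fun i _ => Finset.sum_congr rfl fun j _ => ?_
    ring
  have s3 : ∑ j, ∑ i, a i j * (z' i * z' j) = ∑ i, ∑ j, a i j * z' i * z' j := by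
    rw [Finset.sum_comm]
    refine Finset.sum_congr rfl fun i _ => Finset.sum_congr rfl fun j _ => ?_
    ring
  have h1 := hlow Z
  have h2 : -(M / (4 * m)) * (∑ j, e j * e j) ≤ (∑ j, e j * (z * Z j)) + m * ∑ i, Z i ^ 2 := by
    rw [Finset.mul_sum, Finset.mul_sum, ← Finset.sum_add_distrib]
    refine Finset.sum_le_sum fun j _ => ?_
    have h3 : 0 ≤ (2 * m * Z j + z * e j) ^ 2 := sq_nonneg _
    have h4 : z ^ 2 * e j ^ 2 ≤ M * e j ^ 2 := mul_le_mul_of_nonneg_right hz (sq_nonneg _)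
    have h5 : -(M / (4 * m)) * (e j * e j) = (1 / (4 * m)) * (-(M * e j ^ 2)) := by ring
    have h6 : e j * (z * Z j) + m * Z j ^ 2 =
        (1 / (4 * m)) * ((2 * m * Z j + z * e j) ^ 2 - z ^ 2 * e j ^ 2) := by
      field_simp
      ring
    rw [h5, h6]
    refine mul_le_mul_of_nonneg_left ?_ (by positivity)
    nlinarith
  rw [e1, s1, s2, s3]
  nlinarith

lemma pd_zero_of_notMem {g : E → ℝ} (v : E) {x : E} (hx : x ∉ tsupport g) : pd v g x = 0 := by
  have h1 : x ∉ tsupport (fderiv ℝ g) := fun h => hx (tsupport_fderiv_subset ℝ h)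
  unfold pd
  rw [image_eq_zero_of_notMem_tsupport h1]
  simp

/-- support of a mollified function -/
lemma tsupport_mo_subset {ε δ : ℝ} (hε : ε ≤ δ) {η : E → ℝ} (hη : IsMol ε η) {G : E → ℝ} {K : Set E}
    (hG : ∀ x, x ∉ K → G x = 0) : tsupport (mo η G) ⊆ Metric.cthickening δ K := by
  refine closure_minimal ?_ Metric.isClosed_cthickening
  intro x hx
  by_contra hc
  apply hx
  unfold mo
  rw [← integral_zero E ℝ]
  refine integral_congr_ae (Eventually.of_forall fun y => ?_)
  simp only []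
  by_cases hy : y ∈ K
  · rw [hη.supp (x - y), zero_smul]
    by_contra hlt
    rw [not_le] at hlt
    refine hc (Metric.mem_cthickening_of_dist_le x y δ K hy ?_)
    rw [dist_eq_norm]
    linarith
  · rw [hG y hy, smul_zero]

/-- **the local inequality** -/
theorem local_ineq (D : Dat e b A) {r : E → ℝ} (hr : Continuous r) (hrs : HasCompactSupport r)
    {m : ℝ} (hm : 0 < m) {ζ : E → ℝ} (hζ : Test ζ)
    (hlow : ∀ x ∈ tsupport ζ, ∀ v : ι → ℝ, m * ∑ i, v i ^ 2 ≤ ∑ i, ∑ j, A x i j * v i * v j)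
    {f : E → ℝ} (hf : MemLp f 2 (volume : Measure E)) (hfc : HasCompactSupport f)
    {U : Set E} (hU : IsOpen U) (hζU : tsupport ζ ⊆ U)
    (heq : ∀ F : E → ℝ, Test F → tsupport F ⊆ U →
      ∫ x, f x * (r x * F x - (∑ i, ∑ j, A x i j * pd (e i) (pd (e j) F) x)
        + ∑ j, b j x * pd (e j) F x) = 0) :
    ∫ x, (f x * r x) * (ζ x ^ 2 * f x) ≤
      ∫ x, ((∑ i, ∑ j, A x i j * pd (e i) ζ x * pd (e j) ζ x) * f x) * f x := by
  obtain ⟨d, hd, hdU⟩ := hζ.2.isCompact.exists_cthickening_subset_open hU hζU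
  have hk0 : ∀ k : ℕ, 0 < d / ((k : ℝ) + 1) := fun k => by positivity
  have hk1 : ∀ k : ℕ, d / ((k : ℝ) + 1) ≤ d := by
    intro k
    rw [div_le_iff₀ (by positivity)]
    have := Nat.cast_nonneg (α := ℝ) k
    nlinarith
  have hz' : ∀ j, Test (pd (e j) ζ) := fun j => test_pd hζ (e j)
  -- sequences
  have hp : MemLp (fun x => f x * r x) 2 (volume : Measure E) := memLp_mul hf hr hrs
  have L0 := moll hd hp
  have Lf := moll hd hf
  have bd : ∀ w : E → ℝ, Continuous w → HasCompactSupport w → ∃ B : ℝ, ∀ x, |w x| ≤ B := by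
    intro w hw hc
    obtain ⟨B, hB⟩ := hc.exists_bound_of_continuous hw
    exact ⟨B, hB⟩
  have c2 : Continuous (fun x => ζ x ^ 2) := hζ.1.continuous.pow 2
  have cs2 : HasCompactSupport (fun x => ζ x ^ 2) := by
    have h1 : HasCompactSupport (fun x => ζ x * ζ x) := hζ.2.mul_left
    simpa only [sq] using h1
  obtain ⟨B2, hB2⟩ := bd _ c2 cs2
  obtain ⟨M, hM, hMB⟩ : ∃ M : ℝ, 0 < M ∧ ∀ x, ζ x ^ 2 ≤ M := by
    refine ⟨|B2| + 1, by positivity, fun x => ?_⟩
    have := (le_abs_self _).trans (hB2 x)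
    linarith [le_abs_self B2]
  have L2 := Lf.bmul c2.aestronglyMeasurable hB2
  have c3 : ∀ j, Continuous (fun x => ζ x * pd (e j) ζ x) := fun j =>
    hζ.1.continuous.mul (hz' j).1.continuous
  have cs3 : ∀ j, HasCompactSupport (fun x => ζ x * pd (e j) ζ x) := fun j => (hz' j).2.mul_left
  have L3 : ∀ j, L2t (fun k x => (ζ x * pd (e j) ζ x) * mo (seqD d k) f x)
      (fun x => (ζ x * pd (e j) ζ x) * f x) := fun j => by
    obtain ⟨B3, hB3⟩ := bd _ (c3 j) (cs3 j)
    exact Lf.bmul (c3 j).aestronglyMeasurable hB3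
  have cq : Continuous (fun x => ∑ i, ∑ j, A x i j * pd (e i) ζ x * pd (e j) ζ x) :=
    continuous_finsetSum _ fun i _ => continuous_finsetSum _ fun j _ =>
      ((D.acont i j).mul (hz' i).1.continuous).mul (hz' j).1.continuous
  have csq : HasCompactSupport (fun x => ∑ i, ∑ j, A x i j * pd (e i) ζ x * pd (e j) ζ x) := by
    refine HasCompactSupport.intro hζ.2.isCompact fun x hx => ?_
    refine Finset.sum_eq_zero fun i _ => Finset.sum_eq_zero fun j _ => ?_
    rw [pd_zero_of_notMem (e j) hx, mul_zero]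
  obtain ⟨Bq, hBq⟩ := bd _ cq csq
  have Lq := Lf.bmul cq.aestronglyMeasurable hBq
  have Le : ∀ j, L2t (fun k => err e b A (seqD d k) f j) (fun _ => 0) :=
    fun j => err_lim D hd hf hfc j
  -- the limits
  have T0 := L0.lim_mul L2
  have T1 : Tendsto (fun k => ∑ j, ∫ x, err e b A (seqD d k) f j x * err e b A (seqD d k) f j x)
      atTop (𝓝 (∑ _j : ι, ∫ _x : E, (0 : ℝ) * 0)) :=
    tendsto_finsetSum _ fun j _ => (Le j).lim_mul (Le j)
  have T2 : Tendsto (fun k => ∑ j, ∫ x, err e b A (seqD d k) f j x *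
        ((ζ x * pd (e j) ζ x) * mo (seqD d k) f x)) atTop
      (𝓝 (∑ j : ι, ∫ x : E, (0 : ℝ) * ((ζ x * pd (e j) ζ x) * f x))) :=
    tendsto_finsetSum _ fun j _ => (Le j).lim_mul (L3 j)
  have T3 := Lq.lim_mul Lf
  have T : Tendsto (fun k => (∫ x, mo (seqD d k) (fun x => f x * r x) x *
        (ζ x ^ 2 * mo (seqD d k) f x))
      + -(M / (4 * m)) * (∑ j, ∫ x, err e b A (seqD d k) f j x * err e b A (seqD d k) f j x)
      + (∑ j, ∫ x, err e b A (seqD d k) f j x * ((ζ x * pd (e j) ζ x) * mo (seqD d k) f x))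
      - ∫ x, ((∑ i, ∑ j, A x i j * pd (e i) ζ x * pd (e j) ζ x) * mo (seqD d k) f x) * mo (seqD d k) f x)
      atTop (𝓝 ((∫ x, (f x * r x) * (ζ x ^ 2 * f x))
        + -(M / (4 * m)) * (∑ _j : ι, ∫ _x : E, (0 : ℝ) * 0)
        + (∑ j : ι, ∫ x : E, (0 : ℝ) * ((ζ x * pd (e j) ζ x) * f x))
        - ∫ x, ((∑ i, ∑ j, A x i j * pd (e i) ζ x * pd (e j) ζ x) * f x) * f x)) :=
    ((T0.add (T1.const_mul _)).add T2).sub T3
  have hle : ∀ k : ℕ, (∫ x, mo (seqD d k) (fun x => f x * r x) x *
        (ζ x ^ 2 * mo (seqD d k) f x))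
      + -(M / (4 * m)) * (∑ j, ∫ x, err e b A (seqD d k) f j x * err e b A (seqD d k) f j x)
      + (∑ j, ∫ x, err e b A (seqD d k) f j x * ((ζ x * pd (e j) ζ x) * mo (seqD d k) f x))
      - ∫ x, ((∑ i, ∑ j, A x i j * pd (e i) ζ x * pd (e j) ζ x) * mo (seqD d k) f x) * mo (seqD d k) f x
      ≤ 0 := by
    intro k
    have hη : IsMol (d / ((k : ℝ) + 1)) (seqD d k : E → ℝ) := seqD_isMol hd k
    have hh : ContDiff ℝ ∞ (mo (seqD d k) f) := contDiff_mo hη.contDiff hη.hcs (locInt hf)
    have hG : Test (fun x => ζ x ^ 2 * mo (seqD d k) f x) := ⟨(hζ.1.pow 2).mul hh, cs2.mul_right⟩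
    have hGR : ∀ x, x ∉ tsupport ζ → ζ x ^ 2 * mo (seqD d k) f x = 0 := by
      intro x hx
      rw [image_eq_zero_of_notMem_tsupport hx]; ring
    have hE := test_eq D hr hrs (hk0 k) hf hG (heq _ (test_mo hη (test_loc hG) hG.2)
      ((tsupport_mo_subset (hk1 k) hη hGR).trans hdU))
    have hdG : ∀ j x, pd (e j) (fun x => ζ x ^ 2 * mo (seqD d k) f x) x =
        2 * ζ x * pd (e j) ζ x * mo (seqD d k) f x + ζ x ^ 2 * pd (e j) (mo (seqD d k) f) x := by
      intro j x
      have a1 : HasFDerivAt ζ (fderiv ℝ ζ x) x := ((hζ.1.differentiable (by simp)) x).hasFDerivAt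
      have a2 : HasFDerivAt (mo (seqD d k) f) (fderiv ℝ (mo (seqD d k) f) x) x :=
        ((hh.differentiable (by simp)) x).hasFDerivAt
      have a3 := ((a1.pow 2).mul a2).fderiv
      have a4 : fderiv ℝ (fun x => ζ x ^ 2 * mo (seqD d k) f x) x = _ := a3
      unfold pd
      rw [a4]
      simp
      ring
    have m0 : MemLp (mo (seqD d k) (fun x => f x * r x)) 2 (volume : Measure E) := L0.mem k
    have mf : MemLp (mo (seqD d k) f) 2 (volume : Measure E) := Lf.mem k
    have I0 : Integrable (fun x => mo (seqD d k) (fun x => f x * r x) x *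
        (ζ x ^ 2 * mo (seqD d k) f x)) := m0.integrable_mul (L2.mem k)
    have I1 : ∀ j, Integrable (fun x => err e b A (seqD d k) f j x * err e b A (seqD d k) f j x) :=
      fun j => ((Le j).mem k).integrable_mul ((Le j).mem k)
    have I2 : ∀ j, Integrable (fun x => err e b A (seqD d k) f j x *
        ((ζ x * pd (e j) ζ x) * mo (seqD d k) f x)) := fun j =>
      ((Le j).mem k).integrable_mul ((L3 j).mem k)
    have I3 : Integrable (fun x => ((∑ i, ∑ j, A x i j * pd (e i) ζ x * pd (e j) ζ x) *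
        mo (seqD d k) f x) * mo (seqD d k) f x) := (Lq.mem k).integrable_mul mf
    have S1 : Integrable (fun x => -(M / (4 * m)) * ∑ j, err e b A (seqD d k) f j x *
        err e b A (seqD d k) f j x) := (integrable_finsetSum _ fun j _ => I1 j).const_mul _
    have S2 : Integrable (fun x => ∑ j, err e b A (seqD d k) f j x *
        ((ζ x * pd (e j) ζ x) * mo (seqD d k) f x)) :=
      integrable_finsetSum _ fun j _ => I2 j
    have I01 : Integrable (fun x => mo (seqD d k) (fun x => f x * r x) x *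
        (ζ x ^ 2 * mo (seqD d k) f x) + -(M / (4 * m)) * ∑ j,
        err e b A (seqD d k) f j x * err e b A (seqD d k) f j x) := I0.add S1
    have I012 : Integrable (fun x => mo (seqD d k) (fun x => f x * r x) x *
        (ζ x ^ 2 * mo (seqD d k) f x) + -(M / (4 * m)) * (∑ j,
        err e b A (seqD d k) f j x * err e b A (seqD d k) f j x) + ∑ j, err e b A (seqD d k) f j x *
        ((ζ x * pd (e j) ζ x) * mo (seqD d k) f x)) := I01.add S2
    rw [← integral_finsetSum _ (fun j _ => I1 j), ← integral_finsetSum _ (fun j _ => I2 j),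
      ← integral_const_mul, ← integral_add I0 S1, ← integral_add I01 S2, ← integral_sub I012 I3]
    rw [← hE]
    have hpc : Continuous (mo (seqD d k) (fun x => f x * r x)) :=
      (contDiff_mo hη.contDiff hη.hcs (locInt hp)).continuous
    have hIG : Integrable (fun x => mo (stdM (d / ((k : ℝ) + 1))) (fun y => f y * r y) x *
        (ζ x ^ 2 * mo (seqD d k) f x) + ∑ j, (err e b A (stdM (d / ((k : ℝ) + 1))) f j x +
        ∑ i, A x i j * pd (e i) (mo (stdM (d / ((k : ℝ) + 1))) f) x) *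
        pd (e j) (fun x => ζ x ^ 2 * mo (seqD d k) f x) x) := by
      refine Integrable.add (integrable_cont_test hpc hG.1.continuous hG.2) ?_
      refine integrable_finsetSum _ fun j _ => ?_
      refine integrable_cont_test ?_ (test_pd hG (e j)).1.continuous (test_pd hG (e j)).2
      refine (err_cont D hη (locInt hf) j).add ?_
      refine continuous_finsetSum _ fun i _ => (D.acont i j).mul ?_
      exact (hh.continuous_fderiv (by simp)).clm_apply continuous_const
    refine integral_mono (I012.sub I3) hIG fun x => ?_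
    simp only [hdG]
    by_cases hx : x ∈ tsupport ζ
    · have := esa_alg (A x) (D.symm x) hm (hlow x hx) (fun j => err e b A (seqD d k) f j x)
        (fun i => pd (e i) (mo (seqD d k) f) x) (fun i => pd (e i) ζ x) (ζ x) (mo (seqD d k) f x)
        hM (hMB x)
      simp only [seqD] at this ⊢
      linarith
    · have h1 : 0 ≤ M / (4 * m) * ∑ j, err e b A (seqD d k) f j x * err e b A (seqD d k) f j x :=
        mul_nonneg (by positivity) (Finset.sum_nonneg fun j _ => mul_self_nonneg _)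
      simp only [image_eq_zero_of_notMem_tsupport hx, pd_zero_of_notMem _ hx]
      simp only [mul_zero, zero_mul, Finset.sum_const_zero, ne_eq, OfNat.ofNat_ne_zero,
        not_false_eq_true, zero_pow, add_zero, sub_zero, zero_add]
      simp only [seqD] at h1 ⊢
      linarith
  have hfin := le_of_tendsto T (Eventually.of_forall hle)
  simp only [mul_zero, zero_mul, integral_zero, Finset.sum_const_zero, add_zero] at hfin
  linarith

end Vale.Agent.P284.H359.Fr
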