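import Vale.Agent.P284.H359.Fried2

/-!
# Smooth coefficients with compact support; uniform ellipticity on a compact set
-/

set_option linter.all false

open MeasureTheory Filter Topology
open scoped ContDiff

namespace Vale.Agent.P284.H359.Fr

open Vale.Agent.P284.H359.Moll

section mk

variable {E : Type*} [NormedAddCommGroup E] [NormedSpace ℝ E] [FiniteDimensional ℝ E]
  [MeasureSpace E] [BorelSpace E] [Measure.IsAddHaarMeasure (volume : Measure E)]
  {ι : Type*} [Fintype ι]
  {e : ι → E} {A : E → ι → ι → ℝ}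

lemma Dat.mk' (he : ∀ i, ‖e i‖ ≤ 1) (hA : ∀ i j, Test (fun x => A x i j))
    (hs : ∀ x i j, A x i j = A x j i) :
    Dat e (fun j x => -∑ i, pd (e i) (fun y => A y i j) x) A := by
  have hpd : ∀ i j, Test (pd (e i) (fun y => A y i j)) := fun i j => test_pd (hA i j) (e i)
  have hb : ∀ j, Test (fun x => -∑ i, pd (e i) (fun y => A y i j) x) := by
    intro j
    refine ⟨(ContDiff.sum fun i _ => (hpd i j).1).neg, ?_⟩
    have h1 : ∀ s : Finset ι, HasCompactSupport (fun x => ∑ i ∈ s, pd (e i) (fun y => A y i j) x) := by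
      classical
      intro s
      induction s using Finset.induction_on with
      | empty =>
        simp only [Finset.sum_empty]
        exact HasCompactSupport.zero
      | insert a s ha ih =>
        simp only [Finset.sum_insert ha]
        exact (hpd a j).2.add ih
    have h2 : (fun x => -∑ i, pd (e i) (fun y => A y i j) x) =
        fun x => (-1 : ℝ) * ∑ i, pd (e i) (fun y => A y i j) x := by
      funext x; ring
    rw [h2]
    exact (h1 Finset.univ).mul_left
  refine ⟨he, fun j => (hb j).1.continuous, fun j => (hb j).2, fun i j => (hA i j).1.continuous,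
    fun i j => (hA i j).2, hs, ?_, ?_⟩
  · have h1 : ∀ i j, ∃ C, LipschitzWith C (fun x => A x i j) := fun i j =>
      ContDiff.lipschitzWith_of_hasCompactSupport (hA i j).2 (hA i j).1 (by simp)
    choose C hC using h1
    refine ⟨∑ i, ∑ j, (C i j : ℝ), Finset.sum_nonneg fun i _ => Finset.sum_nonneg fun j _ =>
      (C i j).2, fun x y i j => ?_⟩
    have h2 := (hC i j).dist_le_mul x y
    rw [Real.dist_eq, dist_eq_norm] at h2
    refine h2.trans (mul_le_mul_of_nonneg_right ?_ (norm_nonneg _))
    refine le_trans ?_ (Finset.single_le_sum (f := fun i => ∑ j, (C i j : ℝ))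
      (fun i _ => Finset.sum_nonneg fun j _ => (C i j).2) (Finset.mem_univ i))
    exact Finset.single_le_sum (f := fun j => (C i j : ℝ)) (fun j _ => (C i j).2)
      (Finset.mem_univ j)
  · intro f hf j
    have i1 : ∀ i, Integrable (fun x => A x i j * pd (e i) f x) := fun i =>
      ((hA i j).1.continuous.mul (test_pd hf (e i)).1.continuous).integrable_of_hasCompactSupport
        (test_pd hf (e i)).2.mul_left
    have i2 : ∀ i, Integrable (fun x => pd (e i) (fun y => A y i j) x * f x) := fun i =>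
      ((hpd i j).1.continuous.mul hf.1.continuous).integrable_of_hasCompactSupport
        hf.2.mul_left
    rw [integral_finsetSum _ (fun i _ => i1 i)]
    have h1 : ∀ i, ∫ x, A x i j * pd (e i) f x = -∫ x, pd (e i) (fun y => A y i j) x * f x :=
      fun i => ibp ((hA i j).1.of_le (by simp)) (hf.1.of_le (by simp)) hf.2 (e i)
    simp only [h1]
    rw [Finset.sum_neg_distrib, ← integral_finsetSum _ (fun i _ => i2 i), ← integral_neg]
    refine integral_congr_ae (Eventually.of_forall fun x => ?_)
    simp only []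
    rw [← Finset.sum_mul]
    ring

end mk

/-- uniform ellipticity on a compact set -/
lemma unif_ell {ι X : Type*} [Fintype ι] [TopologicalSpace X] {K : Set X} (hK : IsCompact K)
    (A : X → ι → ι → ℝ) (hA : ∀ i j, ContinuousOn (fun x => A x i j) K)
    (hpos : ∀ x ∈ K, ∀ v : ι → ℝ, v ≠ 0 → 0 < ∑ i, ∑ j, A x i j * v i * v j) :
    ∃ m : ℝ, 0 < m ∧ ∀ x ∈ K, ∀ v : ι → ℝ, m * ∑ i, v i ^ 2 ≤ ∑ i, ∑ j, A x i j * v i * v j := by
  set S : Set (ι → ℝ) := {v | ∑ i, v i ^ 2 = 1} with hS
  have hSc : IsCompact S := by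
    refine Metric.isCompact_of_isClosed_isBounded ?_ ?_
    · exact isClosed_eq (by fun_prop) continuous_const
    · refine (Metric.isBounded_closedBall (x := (0 : ι → ℝ)) (r := 1)).subset fun v hv => ?_
      rw [mem_closedBall_zero_iff, pi_norm_le_iff_of_nonneg zero_le_one]
      intro i
      have h1 : v i ^ 2 ≤ ∑ i, v i ^ 2 :=
        Finset.single_le_sum (f := fun i => v i ^ 2) (fun i _ => sq_nonneg _) (Finset.mem_univ i)
      rw [show (∑ i, v i ^ 2) = 1 from hv] at h1
      rw [Real.norm_eq_abs]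
      exact (sq_le_one_iff_abs_le_one _).1 h1
  have hF : ContinuousOn (fun p : X × (ι → ℝ) => ∑ i, ∑ j, A p.1 i j * p.2 i * p.2 j) (K ×ˢ S) := by
    refine continuousOn_finset_sum _ fun i _ => continuousOn_finset_sum _ fun j _ => ?_
    refine ContinuousOn.mul (ContinuousOn.mul ?_ ?_) ?_
    · exact (hA i j).comp continuousOn_fst fun p hp => hp.1
    · exact (Continuous.continuousOn (by fun_prop))
    · exact (Continuous.continuousOn (by fun_prop))
  have hsc : ∀ v : ι → ℝ, v ≠ 0 → 0 < ∑ i, v i ^ 2 := by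
    intro v hv
    obtain ⟨i, hi⟩ := Function.ne_iff.1 hv
    refine Finset.sum_pos' (fun i _ => sq_nonneg _) ⟨i, Finset.mem_univ i, ?_⟩
    have hi' : v i ≠ 0 := hi
    positivity
  have hnorm : ∀ v : ι → ℝ, v ≠ 0 → (fun i => v i / Real.sqrt (∑ i, v i ^ 2)) ∈ S := by
    intro v hv
    have h := hsc v hv
    show ∑ i, (v i / Real.sqrt (∑ i, v i ^ 2)) ^ 2 = 1
    simp only [div_pow, Real.sq_sqrt h.le]
    rw [← Finset.sum_div, div_self h.ne']
  by_cases hne : (K ×ˢ S).Nonempty
  · obtain ⟨p, hp, hmin⟩ := (hK.prod hSc).exists_isMinOn hne hF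
    have hp0 : p.2 ≠ 0 := by
      intro h
      have := hp.2
      rw [hS, Set.mem_setOf_eq, h] at this
      simp at this
    refine ⟨_, hpos p.1 hp.1 p.2 hp0, fun x hx v => ?_⟩
    by_cases hv : v = 0
    · subst hv; simp
    · have h := hsc v hv
      have h1 := hmin (show (x, fun i => v i / Real.sqrt (∑ i, v i ^ 2)) ∈ K ×ˢ S from
        ⟨hx, hnorm v hv⟩)
      have h2 : ∑ i, ∑ j, A x i j * (v i / Real.sqrt (∑ i, v i ^ 2)) *
          (v j / Real.sqrt (∑ i, v i ^ 2)) =
          (∑ i, ∑ j, A x i j * v i * v j) / (∑ i, v i ^ 2) := by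
        rw [Finset.sum_div]
        refine Finset.sum_congr rfl fun i _ => ?_
        rw [Finset.sum_div]
        refine Finset.sum_congr rfl fun j _ => ?_
        have h3 := Real.mul_self_sqrt h.le
        have h4 : Real.sqrt (∑ i, v i ^ 2) ≠ 0 := (Real.sqrt_pos.2 h).ne'
        rw [mul_assoc, div_mul_div_comm, h3]
        ring
      have h5 : (∑ i, ∑ j, A p.1 i j * p.2 i * p.2 j) ≤ ∑ i, ∑ j, A x i j *
          (v i / Real.sqrt (∑ i, v i ^ 2)) * (v j / Real.sqrt (∑ i, v i ^ 2)) := h1
      rw [h2, le_div_iff₀ h] at h5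
      exact h5
  · refine ⟨1, one_pos, fun x hx v => ?_⟩
    by_cases hv : v = 0
    · subst hv; simp
    · exact absurd ⟨(x, _), hx, hnorm v hv⟩ hne

end Vale.Agent.P284.H359.Fr
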