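import Mathlib

/-!
# Mollification on a finite-dimensional normed space with a Haar measure
(copy of part 1 of P245/H464/ESA, with a normed space in place of an inner product space)
-/

set_option linter.all false

section

/-! # Mollification on a Euclidean space: `mo ρ f = ρ * f`, derivatives, `L²` bounds and convergence -/

open MeasureTheory Filter Topology
open scoped ContDiff

namespace Vale.Agent.P284.H359.Moll

variable {E : Type*} [NormedAddCommGroup E] [NormedSpace ℝ E] [FiniteDimensional ℝ E]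
  [MeasureSpace E] [BorelSpace E] [Measure.IsAddHaarMeasure (volume : Measure E)]

section nsq

variable {F : Type*} [NormedAddCommGroup F]

/-- square of the `L²` norm -/
noncomputable def nsq (f : E → F) : ℝ := ∫ x, ‖f x‖ ^ 2

lemma nsq_nonneg (f : E → F) : 0 ≤ nsq f := integral_nonneg fun _ => by positivity

lemma memLp_norm_sq_int {f : E → F} (hf : MemLp f 2 (volume : Measure E)) :
    Integrable (fun x => ‖f x‖ ^ 2) := hf.integrable_norm_pow (by norm_num)

lemma nsq_add_le {f g : E → F} (hf : MemLp f 2 (volume : Measure E))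
    (hg : MemLp g 2 (volume : Measure E)) :
    nsq (fun x => f x + g x) ≤ 2 * nsq f + 2 * nsq g := by
  have i1 := (memLp_norm_sq_int hf).const_mul 2
  have i2 := (memLp_norm_sq_int hg).const_mul 2
  rw [nsq, nsq, nsq, ← integral_const_mul, ← integral_const_mul, ← integral_add i1 i2]
  refine integral_mono_of_nonneg (Eventually.of_forall fun x => by positivity) (i1.add i2)
    (Eventually.of_forall fun x => ?_)
  have h := norm_add_le (f x) (g x)
  have h2 := pow_le_pow_left₀ (norm_nonneg _) h 2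
  nlinarith [sq_nonneg (‖f x‖ - ‖g x‖)]

lemma nsq_le_of_eLpNorm {f : E → F} (hf : MemLp f 2 (volume : Measure E)) {s : ℝ} (hs : 0 ≤ s)
    (h : eLpNorm f 2 (volume : Measure E) ≤ ENNReal.ofReal s) : nsq f ≤ s ^ 2 := by
  have h1 : eLpNorm f 2 (volume : Measure E) ^ 2 = ∫⁻ x, ‖f x‖ₑ ^ 2 := by
    rw [eLpNorm_eq_lintegral_rpow_enorm_toReal (by norm_num) (by norm_num)]
    simp only [ENNReal.toReal_ofNat, ENNReal.rpow_ofNat, one_div]
    rw [← ENNReal.rpow_natCast, ← ENNReal.rpow_mul]
    norm_num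
  have h2 : ENNReal.ofReal (nsq f) = ∫⁻ x, ‖f x‖ₑ ^ 2 := by
    rw [nsq, ofReal_integral_eq_lintegral_ofReal (memLp_norm_sq_int hf)
      (Eventually.of_forall fun x => by positivity)]
    refine lintegral_congr fun x => ?_
    rw [ENNReal.ofReal_pow (norm_nonneg _), ofReal_norm]
  have h3 : ENNReal.ofReal (nsq f) ≤ ENNReal.ofReal (s ^ 2) := by
    rw [h2, ← h1, ENNReal.ofReal_pow hs]
    gcongr
  exact (ENNReal.ofReal_le_ofReal_iff (by positivity)).1 h3

end nsq

section general

variable {G : Type*} [NormedAddCommGroup G] [NormedSpace ℝ G]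

/-- mollification -/
noncomputable def mo (ρ : E → ℝ) (f : E → G) (x : E) : G := ∫ y, ρ (x - y) • f y

lemma mo_eq_conv (ρ : E → ℝ) (f : E → G) :
    mo ρ f = convolution f ρ (ContinuousLinearMap.lsmul ℝ ℝ).flip volume := rfl

lemma mo_eq_conv' (ρ : E → ℝ) (f : E → G) :
    mo ρ f = convolution ρ f (ContinuousLinearMap.lsmul ℝ ℝ) volume := by
  rw [mo_eq_conv, convolution_flip]

lemma integrable_mo {ρ : E → ℝ} (hρ : Continuous ρ) (hc : HasCompactSupport ρ) {f : E → G}
    (hf : LocallyIntegrable f volume) (x : E) : Integrable (fun y => ρ (x - y) • f y) := by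
  have h := HasCompactSupport.convolutionExists_right
    ((ContinuousLinearMap.lsmul ℝ ℝ : ℝ →L[ℝ] G →L[ℝ] G).flip) hc hf hρ x
  exact h

lemma contDiff_mo {ρ : E → ℝ} (hρ : ContDiff ℝ ∞ ρ) (hc : HasCompactSupport ρ) {f : E → G}
    (hf : LocallyIntegrable f volume) : ContDiff ℝ ∞ (mo ρ f) := by
  rw [mo_eq_conv]
  exact hc.contDiff_convolution_right _ hf hρ

lemma fderiv_mo {ρ : E → ℝ} (hρ : ContDiff ℝ ∞ ρ) (hc : HasCompactSupport ρ) {f : E → G}
    (hf : LocallyIntegrable f volume) (x e : E) :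
    fderiv ℝ (mo ρ f) x e = mo (fun z => fderiv ℝ ρ z e) f x := by
  have h1 := hc.hasFDerivAt_convolution_right
    ((ContinuousLinearMap.lsmul ℝ ℝ : ℝ →L[ℝ] G →L[ℝ] G).flip) hf (hρ.of_le (by simp)) x
  have h2 : fderiv ℝ (mo ρ f) x = _ := h1.fderiv
  rw [h2, convolution_precompR_apply _ hf (hc.fderiv ℝ) (hρ.continuous_fderiv (by simp))]
  rfl

lemma mo_sub {ρ : E → ℝ} (hρ : Continuous ρ) (hc : HasCompactSupport ρ) {f g : E → G}
    (hf : LocallyIntegrable f volume) (hg : LocallyIntegrable g volume) (x : E) :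
    mo ρ (fun y => f y - g y) x = mo ρ f x - mo ρ g x := by
  unfold mo
  rw [← integral_sub (integrable_mo hρ hc hf x) (integrable_mo hρ hc hg x)]
  simp only [smul_sub]

end general

/-- mollifiers of radius `ε` -/
structure IsMol (ε : ℝ) (ρ : E → ℝ) : Prop where
  contDiff : ContDiff ℝ ∞ ρ
  hcs : HasCompactSupport ρ
  nonneg : ∀ x, 0 ≤ ρ x
  supp : ∀ x, ε ≤ ‖x‖ → ρ x = 0
  one : ∫ x, ρ x = 1

section jensen

variable {G : Type*} [NormedAddCommGroup G] [NormedSpace ℝ G] {ε : ℝ} {ρ : E → ℝ}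

lemma norm_mo_le' {ρ : E → ℝ} (h0 : ∀ x, 0 ≤ ρ x) (f : E → G) (x : E) :
    ‖mo ρ f x‖ ≤ mo ρ (fun y => ‖f y‖) x := by
  unfold mo
  refine (norm_integral_le_integral_norm _).trans (le_of_eq ?_)
  refine integral_congr_ae (Eventually.of_forall fun y => ?_)
  simp only [norm_smul, Real.norm_of_nonneg (h0 _), smul_eq_mul]

lemma norm_mo_le (h : IsMol ε ρ) (f : E → G) (x : E) :
    ‖mo ρ f x‖ ≤ mo ρ (fun y => ‖f y‖) x := norm_mo_le' h.nonneg f x

end jensen

section L2

variable {F : Type*} [NormedAddCommGroup F] {ε : ℝ} {ρ : E → ℝ}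

lemma locInt {f : E → F} (hf : MemLp f 2 (volume : Measure E)) :
    LocallyIntegrable f volume := hf.locallyIntegrable (by norm_num)

lemma locInt_sq {f : E → F} (hf : MemLp f 2 (volume : Measure E)) :
    LocallyIntegrable (fun y => ‖f y‖ ^ 2) volume := (memLp_norm_sq_int hf).locallyIntegrable

/-- Cauchy-Schwarz for a nonnegative kernel of mass `m` -/
lemma sq_mo_le {ρ : E → ℝ} (hρ : Continuous ρ) (hc : HasCompactSupport ρ) (h0 : ∀ x, 0 ≤ ρ x)
    {f : E → F} (hf : LocallyIntegrable f volume)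
    (hf2 : LocallyIntegrable (fun y => ‖f y‖ ^ 2) volume) (x : E) :
    (mo ρ (fun y => ‖f y‖) x) ^ 2 ≤ (∫ x, ρ x) * mo ρ (fun y => ‖f y‖ ^ 2) x := by
  have i1 : Integrable (fun y => ρ (x - y) • ‖f y‖) :=
    integrable_mo hρ hc (fun z => (hf z).norm) x
  have i2 : Integrable (fun y => ρ (x - y) • ‖f y‖ ^ 2) :=
    integrable_mo hρ hc hf2 x
  have i3 : Integrable (fun y => ρ (x - y)) :=
    (hρ.integrable_of_hasCompactSupport hc).comp_sub_left x
  have hm : ∫ y, ρ (x - y) = ∫ x, ρ x := integral_sub_left_eq_self ρ volume x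
  have hm0 : 0 ≤ ∫ x, ρ x := integral_nonneg h0
  set A := mo ρ (fun y => ‖f y‖) x with hA
  set B := mo ρ (fun y => ‖f y‖ ^ 2) x with hB
  set M := ∫ x, ρ x with hM
  have h2 : ∀ t : ℝ, 0 ≤ M * t ^ 2 - 2 * t * A + B := by
    intro t
    have h1 : 0 ≤ ∫ y, ρ (x - y) * (t - ‖f y‖) ^ 2 :=
      integral_nonneg fun y => mul_nonneg (h0 _) (sq_nonneg _)
    have h2 : ∫ y, ρ (x - y) * (t - ‖f y‖) ^ 2 = B - 2 * t * A + t ^ 2 * M := by
      have i4 : Integrable (fun y => ρ (x - y) • ‖f y‖ ^ 2 - 2 * t * (ρ (x - y) • ‖f y‖)) :=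
        i2.sub (i1.const_mul _)
      rw [hA, hB, ← hm]
      unfold mo
      rw [← integral_const_mul, ← integral_const_mul, ← integral_sub i2 (i1.const_mul _),
        ← integral_add i4 (i3.const_mul _)]
      refine integral_congr_ae (Eventually.of_forall fun y => ?_)
      simp only [smul_eq_mul]
      ring
    rw [h2] at h1
    nlinarith
  have h3 := discrim_le_zero (a := M) (b := -2 * A) (c := B) (fun t => by have := h2 t; nlinarith)
  unfold discrim at h3
  nlinarith

lemma integral_mo_sq {ρ : E → ℝ} (hρ : Continuous ρ) (hc : HasCompactSupport ρ)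
    {f : E → F} (hf : MemLp f 2 (volume : Measure E)) :
    Integrable (mo ρ (fun y => ‖f y‖ ^ 2)) ∧
      ∫ x, mo ρ (fun y => ‖f y‖ ^ 2) x = (∫ x, ρ x) * nsq f := by
  have i1 := memLp_norm_sq_int hf
  have i2 : Integrable ρ := hρ.integrable_of_hasCompactSupport hc
  rw [mo_eq_conv]
  refine ⟨i1.integrable_convolution _ i2, ?_⟩
  rw [integral_convolution _ i1 i2]
  simp [nsq]

/-- bound for functions dominated by `ρ * |f|`, for a nonnegative kernel `ρ` -/
lemma nsq_le_mo {ρ : E → ℝ} (hρ : Continuous ρ) (hc : HasCompactSupport ρ) (h0 : ∀ x, 0 ≤ ρ x)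
    {f : E → F} (hf : MemLp f 2 (volume : Measure E))
    {F' : Type*} [NormedAddCommGroup F'] {w : E → F'} (hm : AEStronglyMeasurable w volume)
    (hw : ∀ x, ‖w x‖ ≤ mo ρ (fun y => ‖f y‖) x) :
    MemLp w 2 (volume : Measure E) ∧ nsq w ≤ (∫ x, ρ x) ^ 2 * nsq f := by
  obtain ⟨i1, i2⟩ := integral_mo_sq hρ hc hf
  have hb : ∀ x, ‖w x‖ ^ 2 ≤ (∫ x, ρ x) * mo ρ (fun y => ‖f y‖ ^ 2) x := by
    intro x
    calc ‖w x‖ ^ 2 ≤ (mo ρ (fun y => ‖f y‖) x) ^ 2 :=
          pow_le_pow_left₀ (norm_nonneg _) (hw x) 2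
      _ ≤ _ := sq_mo_le hρ hc h0 (locInt hf) (locInt_sq hf) x
  constructor
  · refine (memLp_two_iff_integrable_sq_norm hm).mpr ?_
    refine (i1.const_mul (∫ x, ρ x)).mono' (hm.norm.pow 2) (Eventually.of_forall fun x => ?_)
    rw [Real.norm_of_nonneg (by positivity)]
    exact hb x
  · have e : (∫ x, ρ x) ^ 2 * nsq f = ∫ x, (∫ x, ρ x) * mo ρ (fun y => ‖f y‖ ^ 2) x := by
      rw [integral_const_mul, i2]; ring
    rw [e]
    exact integral_mono_of_nonneg (Eventually.of_forall fun x => by positivity)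
      (i1.const_mul _) (Eventually.of_forall hb)

variable [NormedSpace ℝ F]

lemma nsq_mo_le (h : IsMol ε ρ) {f : E → F} (hf : MemLp f 2 (volume : Measure E)) :
    MemLp (mo ρ f) 2 (volume : Measure E) ∧ nsq (mo ρ f) ≤ nsq f := by
  have h1 := nsq_le_mo h.contDiff.continuous h.hcs h.nonneg hf
    (contDiff_mo h.contDiff h.hcs (locInt hf)).continuous.aestronglyMeasurable
    (fun x => norm_mo_le h f x)
  rw [h.one] at h1
  simpa using h1

/-- mollification of a continuous compactly supported function -/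
lemma mo_approx_cont [CompleteSpace F] {g : E → F} (hg : Continuous g) (hgc : HasCompactSupport g)
    {δ : ℝ} (hδ : 0 < δ) : ∃ ε₀ > 0, ∀ ε, ε ≤ ε₀ → ∀ ρ, IsMol ε ρ →
      nsq (fun x => mo ρ g x - g x) ≤ δ := by
  obtain ⟨r, hr⟩ := hgc.isCompact.isBounded.subset_closedBall (0 : E)
  have hg0 : ∀ x, r < ‖x‖ → g x = 0 := by
    intro x hx
    by_contra hne
    have h1 := hr (subset_tsupport _ hne)
    rw [Metric.mem_closedBall, dist_zero_right] at h1
    linarith
  obtain ⟨v, hv⟩ : ∃ v : ℝ, v = (volume (Metric.closedBall (0 : E) (r + 1))).toReal := ⟨_, rfl⟩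
  have hv0 : 0 ≤ v := hv ▸ ENNReal.toReal_nonneg
  obtain ⟨η, hη⟩ : ∃ η : ℝ, η = Real.sqrt (δ / (v + 1)) := ⟨_, rfl⟩
  have hη0 : 0 < η := hη ▸ Real.sqrt_pos.2 (by positivity)
  have huc : UniformContinuous g := hgc.uniformContinuous_of_continuous hg
  obtain ⟨ε₁, hε₁, h1⟩ := Metric.uniformContinuous_iff.1 huc η hη0
  refine ⟨min ε₁ 1, lt_min hε₁ one_pos, fun ε hε ρ hρ => ?_⟩
  have hsupp : Function.support ρ ⊆ Metric.ball (0 : E) ε := by
    intro z hz
    rw [Metric.mem_ball, dist_zero_right]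
    by_contra hcon
    exact hz (hρ.supp z (not_lt.1 hcon))
  have hbd : ∀ x, ‖mo ρ g x - g x‖ ^ 2 ≤
      (Metric.closedBall (0 : E) (r + 1)).indicator (fun _ => η ^ 2) x := by
    intro x
    by_cases hx : x ∈ Metric.closedBall (0 : E) (r + 1)
    · rw [Set.indicator_of_mem hx]
      refine pow_le_pow_left₀ (norm_nonneg _) ?_ 2
      rw [← dist_eq_norm, mo_eq_conv']
      refine dist_convolution_le hη0.le hsupp hρ.nonneg hρ.one hg.aestronglyMeasurable ?_
      intro y hy
      exact (h1 (lt_of_lt_of_le hy (hε.trans (min_le_left _ _)))).le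
    · rw [Set.indicator_of_notMem hx]
      have hx' : r + 1 < ‖x‖ := by
        rw [Metric.mem_closedBall, dist_zero_right, not_le] at hx
        exact hx
      have h2 : ‖mo ρ g x - g x‖ ≤ 0 := by
        rw [← dist_eq_norm, mo_eq_conv']
        refine dist_convolution_le le_rfl hsupp hρ.nonneg hρ.one hg.aestronglyMeasurable ?_
        intro y hy
        have hy1 : dist y x < 1 := lt_of_lt_of_le hy (hε.trans (min_le_right _ _))
        have hy2 : r < ‖y‖ := by
          have h3 : ‖x‖ ≤ ‖y‖ + dist y x := by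
            have := norm_sub_norm_le x y
            rw [dist_comm, dist_eq_norm]
            linarith
          linarith
        rw [hg0 y hy2, hg0 x (by linarith), dist_self]
      have h3 : ‖mo ρ g x - g x‖ = 0 := le_antisymm h2 (norm_nonneg _)
      rw [h3]
      norm_num
  have hfin : volume (Metric.closedBall (0 : E) (r + 1)) ≠ ⊤ :=
    (isCompact_closedBall (0 : E) (r + 1)).measure_lt_top.ne
  calc nsq (fun x => mo ρ g x - g x)
      ≤ ∫ x, (Metric.closedBall (0 : E) (r + 1)).indicator (fun _ => η ^ 2) x := by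
        refine integral_mono_of_nonneg (Eventually.of_forall fun x => by positivity) ?_
          (Eventually.of_forall hbd)
        exact (integrable_indicator_iff Metric.isClosed_closedBall.measurableSet).2
          (integrableOn_const hfin)
    _ = v * η ^ 2 := by
        rw [integral_indicator Metric.isClosed_closedBall.measurableSet, setIntegral_const,
          smul_eq_mul, hv]
        rfl
    _ ≤ δ := by
        rw [hη, Real.sq_sqrt (by positivity), mul_div_assoc']
        rw [div_le_iff₀ (by positivity)]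
        nlinarith

/-- mollification converges in `L²` -/
lemma mo_approx [CompleteSpace F] {f : E → F} (hf : MemLp f 2 (volume : Measure E)) {δ : ℝ}
    (hδ : 0 < δ) :
    ∃ ε₀ > 0, ∀ ε, ε ≤ ε₀ → ∀ ρ, IsMol ε ρ → nsq (fun x => mo ρ f x - f x) ≤ δ := by
  obtain ⟨s, hs⟩ : ∃ s : ℝ, s = Real.sqrt (δ / 12) := ⟨_, rfl⟩
  have hs0 : 0 < s := hs ▸ Real.sqrt_pos.2 (by positivity)
  obtain ⟨g, hgc, hfg, hg, hgm⟩ := hf.exists_hasCompactSupport_eLpNorm_sub_le (by norm_num)
    (ε := ENNReal.ofReal s) (by simpa using hs0)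
  have hd : MemLp (fun x => f x - g x) 2 (volume : Measure E) := hf.sub hgm
  have h1 : nsq (fun x => f x - g x) ≤ δ / 12 := by
    have e1 := nsq_le_of_eLpNorm hd hs0.le hfg
    rwa [hs, Real.sq_sqrt (by positivity)] at e1
  obtain ⟨ε₀, hε₀, h2⟩ := mo_approx_cont hg hgc (show 0 < δ / 12 by positivity)
  refine ⟨ε₀, hε₀, fun ε hε ρ hρ => ?_⟩
  have h3 := h2 ε hε ρ hρ
  have h4 := nsq_mo_le hρ hd
  have m1 : MemLp (mo ρ (fun x => f x - g x)) 2 (volume : Measure E) := h4.1
  have m2 : MemLp (fun x => mo ρ g x - g x) 2 (volume : Measure E) :=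
    (nsq_mo_le hρ hgm).1.sub hgm
  have m3 : MemLp (fun x => g x - f x) 2 (volume : Measure E) := hgm.sub hf
  have e : (fun x => mo ρ f x - f x) = fun x =>
      mo ρ (fun x => f x - g x) x + ((mo ρ g x - g x) + (g x - f x)) := by
    funext x
    rw [mo_sub hρ.contDiff.continuous hρ.hcs (locInt hf) (locInt hgm)]
    abel
  have e3 : nsq (fun x => g x - f x) = nsq (fun x => f x - g x) := by
    unfold nsq
    refine integral_congr_ae (Eventually.of_forall fun x => ?_)
    simp only [norm_sub_rev]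
  rw [e]
  have b1 := nsq_add_le m1 (m2.add m3)
  have b2 := nsq_add_le m2 m3
  have b3 : nsq (fun x => mo ρ (fun x => f x - g x) x + ((mo ρ g x - g x) + (g x - f x))) ≤
    2 * nsq (mo ρ (fun x => f x - g x)) + 2 * nsq (fun x => (mo ρ g x - g x) + (g x - f x)) := b1
  rw [e3] at b2
  linarith [h4.2]

end L2

end Vale.Agent.P284.H359.Moll
end

section

/-! # Standard mollifiers `stdM ε`, swap, integration by parts, `L²` sequences -/

open MeasureTheory Filter Topology
open scoped ContDiff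

namespace Vale.Agent.P284.H359.Moll

variable {E : Type*} [NormedAddCommGroup E] [NormedSpace ℝ E] [FiniteDimensional ℝ E]
  [MeasureSpace E] [BorelSpace E] [Measure.IsAddHaarMeasure (volume : Measure E)]

/-- derivative of a mollification of a `C¹` function -/
lemma fderiv_mo' {G : Type*} [NormedAddCommGroup G] [NormedSpace ℝ G] {ρ : E → ℝ}
    (hρ : LocallyIntegrable ρ volume) {g : E → G}
    (hg : ContDiff ℝ 1 g) (hc : HasCompactSupport g) (x e : E) :
    fderiv ℝ (mo ρ g) x e = mo ρ (fun y => fderiv ℝ g y e) x := by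
  have h1 := hc.hasFDerivAt_convolution_right
    ((ContinuousLinearMap.lsmul ℝ ℝ : ℝ →L[ℝ] G →L[ℝ] G)) hρ hg x
  have h2 := h1.fderiv
  rw [← mo_eq_conv'] at h2
  rw [h2, convolution_precompR_apply _ hρ (hc.fderiv ℝ) (hg.continuous_fderiv (by simp)),
    mo_eq_conv']

/-- moving an even mollifier to the other side -/
lemma mo_swap {ρ : E → ℝ} (hρ : Continuous ρ) (hc : HasCompactSupport ρ) (he : ∀ x, ρ (-x) = ρ x)
    {p G : E → ℝ} (hp : Integrable p) (hG : Continuous G) (hGc : HasCompactSupport G) :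
    ∫ x, p x * mo ρ G x = ∫ x, mo ρ p x * G x := by
  have hρi : Integrable ρ := hρ.integrable_of_hasCompactSupport hc
  have h1 := hp.convolution_integrand (ContinuousLinearMap.mul ℝ ℝ) hρi (μ := volume) (ν := volume)
  obtain ⟨B, hB⟩ := hGc.exists_bound_of_continuous hG
  have h2 : Integrable (fun z : E × E => (p z.2 * ρ (z.1 - z.2)) * G z.1)
      ((volume : Measure E).prod volume) := by
    refine Integrable.mul_bdd (c := B) h1 ?_ (Eventually.of_forall fun z => hB z.1)
    exact (hG.comp continuous_fst).aestronglyMeasurable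
  have h3 := integral_integral_swap (f := fun x y : E => (p y * ρ (x - y)) * G x) h2
  have e1 : ∫ x, ∫ y, (p y * ρ (x - y)) * G x = ∫ x, mo ρ p x * G x := by
    refine integral_congr_ae (Eventually.of_forall fun x => ?_)
    simp only [mo, smul_eq_mul]
    rw [integral_mul_const]
    congr 1
    refine integral_congr_ae (Eventually.of_forall fun y => ?_)
    simp only []
    ring
  have e2 : ∫ y, ∫ x, (p y * ρ (x - y)) * G x = ∫ y, p y * mo ρ G y := by
    refine integral_congr_ae (Eventually.of_forall fun y => ?_)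
    simp only [mo, smul_eq_mul]
    rw [← integral_const_mul]
    refine integral_congr_ae (Eventually.of_forall fun x => ?_)
    simp only []
    rw [show y - x = -(x - y) by abel, he]
    ring
  rw [← e1, ← e2, h3]

/-- integration by parts -/
lemma ibp {u g : E → ℝ} (hu : ContDiff ℝ 1 u) (hg : ContDiff ℝ 1 g) (hc : HasCompactSupport g)
    (e : E) : ∫ x, u x * fderiv ℝ g x e = - ∫ x, fderiv ℝ u x e * g x := by
  have hu' : Continuous (fun x => fderiv ℝ u x e) :=
    (hu.continuous_fderiv (by simp)).clm_apply continuous_const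
  have hg' : Continuous (fun x => fderiv ℝ g x e) :=
    (hg.continuous_fderiv (by simp)).clm_apply continuous_const
  have hc' : HasCompactSupport (fun x => fderiv ℝ g x e) :=
    (hc.fderiv ℝ).comp_left (g := fun L : E →L[ℝ] ℝ => L e) (by simp)
  refine integral_mul_fderiv_eq_neg_fderiv_mul_of_integrable ?_ ?_ ?_
    (fun x _ => hu.differentiable (by simp) x) (fun x _ => hg.differentiable (by simp) x)
  · exact (hu'.mul hg.continuous).integrable_of_hasCompactSupport hc.mul_left
  · exact (hu.continuous.mul hg').integrable_of_hasCompactSupport hc'.mul_left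
  · exact (hu.continuous.mul hg.continuous).integrable_of_hasCompactSupport hc.mul_left

section std

variable (E)

/-- the reference bump -/
noncomputable def bmp : ContDiffBump (0 : E) := ⟨1 / 2, 1, by norm_num, by norm_num⟩

/-- the reference mollifier -/
noncomputable def eta : E → ℝ := (bmp E).normed volume

variable {E}

/-- the standard mollifier of radius `ε` -/
noncomputable def stdM (ε : ℝ) (x : E) : ℝ := ε⁻¹ ^ (Module.finrank ℝ E) * eta E (ε⁻¹ • x)

lemma eta_contDiff : ContDiff ℝ ∞ (eta E) := (bmp E).contDiff_normed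

lemma eta_hcs : HasCompactSupport (eta E) := (bmp E).hasCompactSupport_normed

lemma eta_nonneg (x : E) : 0 ≤ eta E x := (bmp E).nonneg_normed x

lemma eta_zero {x : E} (h : 1 ≤ ‖x‖) : eta E x = 0 := by
  have h1 : x ∉ Function.support (eta E) := by
    unfold eta
    rw [(bmp E).support_normed_eq]
    simpa [bmp] using h
  simpa using h1

lemma eta_int : ∫ x, eta E x = 1 := (bmp E).integral_normed

lemma eta_neg (x : E) : eta E (-x) = eta E x := (bmp E).normed_neg x

lemma stdM_even (ε : ℝ) (x : E) : stdM ε (-x) = stdM ε x := by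
  unfold stdM
  rw [smul_neg, eta_neg]

lemma stdM_isMol {ε : ℝ} (hε : 0 < ε) : IsMol ε (stdM ε : E → ℝ) where
  contDiff := contDiff_const.mul (eta_contDiff.comp (contDiff_const_smul _))
  hcs := by
    have h1 : HasCompactSupport (fun x : E => eta E (ε⁻¹ • x)) :=
      eta_hcs.comp_homeomorph (Homeomorph.smulOfNeZero ε⁻¹ (inv_ne_zero hε.ne'))
    exact h1.mul_left
  nonneg x := mul_nonneg (by positivity) (eta_nonneg _)
  supp x hx := by
    unfold stdM
    rw [eta_zero, mul_zero]
    rw [norm_smul, norm_inv, Real.norm_of_nonneg hε.le, inv_mul_eq_div, le_div_iff₀ hε]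
    linarith
  one := by
    unfold stdM
    rw [integral_const_mul, Measure.integral_comp_smul_of_nonneg _ _ _ (hR := by positivity), eta_int]
    rw [smul_eq_mul, mul_one]
    exact mul_inv_cancel₀ (by positivity)

/-- the kernel `‖D η_ε‖ ‖z‖` -/
noncomputable def kerM (ε : ℝ) (z : E) : ℝ := ‖fderiv ℝ (stdM ε : E → ℝ) z‖ * ‖z‖

lemma kerM_eq {ε : ℝ} (hε : 0 < ε) (z : E) :
    kerM ε z = ε⁻¹ ^ (Module.finrank ℝ E) * kerM 1 (ε⁻¹ • z) := by
  have h0 : (stdM 1 : E → ℝ) = eta E := by
    funext x; simp [stdM]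
  have h1 : fderiv ℝ (stdM ε : E → ℝ) z =
      (ε⁻¹ ^ (Module.finrank ℝ E)) • (ε⁻¹ • fderiv ℝ (eta E) (ε⁻¹ • z)) := by
    have h2 : HasFDerivAt (fun x : E => ε⁻¹ • x) (ε⁻¹ • ContinuousLinearMap.id ℝ E) z :=
      (hasFDerivAt_id z).const_smul ε⁻¹
    have h3 : HasFDerivAt (eta E) (fderiv ℝ (eta E) (ε⁻¹ • z)) (ε⁻¹ • z) :=
      ((eta_contDiff.differentiable (by simp)) _).hasFDerivAt
    have h4 := (h3.comp z h2).const_mul (ε⁻¹ ^ (Module.finrank ℝ E))
    have h5 : fderiv ℝ (stdM ε : E → ℝ) z = _ := h4.fderiv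
    rw [h5]
    ext v
    simp
  unfold kerM
  rw [h1, h0, norm_smul, norm_smul, norm_smul]
  rw [Real.norm_of_nonneg (show (0 : ℝ) ≤ ε⁻¹ ^ (Module.finrank ℝ E) by positivity),
    Real.norm_of_nonneg (show (0 : ℝ) ≤ ε⁻¹ by positivity)]
  ring

lemma kerM_cont {ε : ℝ} (hε : 0 < ε) : Continuous (kerM ε : E → ℝ) :=
  (((stdM_isMol hε).contDiff.continuous_fderiv (by simp)).norm).mul continuous_norm

lemma kerM_hcs {ε : ℝ} (hε : 0 < ε) : HasCompactSupport (kerM ε : E → ℝ) := by
  have h1 : HasCompactSupport (fderiv ℝ (stdM ε : E → ℝ)) := (stdM_isMol hε).hcs.fderiv ℝ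
  refine HasCompactSupport.mono' h1 (fun z hz => subset_tsupport _ ?_)
  intro h0
  apply hz
  unfold kerM
  rw [h0, norm_zero, zero_mul]

lemma kerM_nonneg (ε : ℝ) (z : E) : 0 ≤ kerM ε z := by unfold kerM; positivity

lemma kerM_int {ε : ℝ} (hε : 0 < ε) : ∫ z : E, kerM ε z = ∫ z : E, kerM 1 z := by
  simp only [kerM_eq hε]
  rw [integral_const_mul, Measure.integral_comp_smul_of_nonneg _ _ _ (hR := by positivity)]
  rw [smul_eq_mul, ← mul_assoc, mul_inv_cancel₀ (by positivity), one_mul]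

end std

/-- `L²` convergence -/
structure L2t (f : ℕ → E → ℝ) (g : E → ℝ) : Prop where
  mem : ∀ n, MemLp (f n) 2 (volume : Measure E)
  mem' : MemLp g 2 (volume : Measure E)
  lim : Tendsto (fun n => nsq (fun x => f n x - g x)) atTop (𝓝 0)

lemma norm_toLp {f : E → ℝ} (hf : MemLp f 2 (volume : Measure E)) :
    ‖hf.toLp f‖ ^ 2 = nsq f := by
  rw [← real_inner_self_eq_norm_sq, MeasureTheory.L2.inner_def]
  refine integral_congr_ae ?_
  filter_upwards [hf.coeFn_toLp] with x hx
  rw [hx, real_inner_self_eq_norm_sq]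

namespace L2t

variable {f f' : ℕ → E → ℝ} {g g' : E → ℝ}

lemma lim_toLp (h : L2t f g) :
    Tendsto (fun n => (h.mem n).toLp (f n)) atTop (𝓝 (h.mem'.toLp g)) := by
  rw [tendsto_iff_norm_sub_tendsto_zero]
  have h1 : ∀ n, ‖(h.mem n).toLp (f n) - h.mem'.toLp g‖ =
      Real.sqrt (nsq (fun x => f n x - g x)) := by
    intro n
    rw [← MemLp.toLp_sub, ← Real.sqrt_sq (norm_nonneg (MemLp.toLp _ _)), norm_toLp]
    rfl
  simp only [h1]
  have := (Real.continuous_sqrt.tendsto 0).comp h.lim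
  rw [Real.sqrt_zero] at this
  exact this

lemma lim_mul (h : L2t f g) (h' : L2t f' g') :
    Tendsto (fun n => ∫ x, f n x * f' n x) atTop (𝓝 (∫ x, g x * g' x)) := by
  have h1 : ∀ {a b : E → ℝ} (ha : MemLp a 2 (volume : Measure E))
      (hb : MemLp b 2 (volume : Measure E)),
      ∫ x, a x * b x = inner ℝ (ha.toLp a) (hb.toLp b) := by
    intro a b ha hb
    rw [MeasureTheory.L2.inner_def]
    refine integral_congr_ae ?_
    filter_upwards [ha.coeFn_toLp, hb.coeFn_toLp] with x hx hy
    rw [hx, hy]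
    simp [mul_comm]
  have h2 := h.lim_toLp.inner h'.lim_toLp (𝕜 := ℝ)
  rw [h1 h.mem' h'.mem']
  refine h2.congr fun n => ?_
  rw [← h1]

/-- multiplication by a bounded function -/
lemma bmul (h : L2t f g) {w : E → ℝ} (hw : AEStronglyMeasurable w (volume : Measure E)) {B : ℝ}
    (hB : ∀ x, |w x| ≤ B) : L2t (fun n x => w x * f n x) (fun x => w x * g x) := by
  have hm : ∀ {a : E → ℝ}, MemLp a 2 (volume : Measure E) →
      MemLp (fun x => w x * a x) 2 (volume : Measure E) := by
    intro a ha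
    refine MemLp.of_le_mul (c := B) ha (hw.mul ha.1) (Eventually.of_forall fun x => ?_)
    rw [norm_mul]
    exact mul_le_mul_of_nonneg_right (hB x) (norm_nonneg _)
  refine ⟨fun n => hm (h.mem n), hm h.mem', ?_⟩
  have h1 : ∀ n, nsq (fun x => w x * f n x - w x * g x) ≤ B ^ 2 * nsq (fun x => f n x - g x) := by
    intro n
    have i1 := memLp_norm_sq_int ((h.mem n).sub h.mem')
    rw [nsq, nsq, ← integral_const_mul]
    refine integral_mono_of_nonneg (Eventually.of_forall fun x => by positivity)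
      (i1.const_mul _) (Eventually.of_forall fun x => ?_)
    have h2 : ‖w x * f n x - w x * g x‖ ≤ B * ‖f n x - g x‖ := by
      rw [← mul_sub, norm_mul]
      exact mul_le_mul_of_nonneg_right (hB x) (norm_nonneg _)
    have := pow_le_pow_left₀ (norm_nonneg _) h2 2
    simpa [mul_pow] using this
  refine squeeze_zero (fun n => nsq_nonneg _) h1 ?_
  simpa using h.lim.const_mul (B ^ 2)

lemma add (h : L2t f g) (h' : L2t f' g') :
    L2t (fun n x => f n x + f' n x) (fun x => g x + g' x) := by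
  refine ⟨fun n => (h.mem n).add (h'.mem n), h.mem'.add h'.mem', ?_⟩
  have h1 : ∀ n, nsq (fun x => f n x + f' n x - (g x + g' x)) ≤
      2 * nsq (fun x => f n x - g x) + 2 * nsq (fun x => f' n x - g' x) := by
    intro n
    have := nsq_add_le ((h.mem n).sub h.mem') ((h'.mem n).sub h'.mem')
    refine le_trans (le_of_eq ?_) this
    congr 1
    funext x
    simp only [Pi.sub_apply]
    ring
  refine squeeze_zero (fun n => nsq_nonneg _) h1 ?_
  simpa using (h.lim.const_mul 2).add (h'.lim.const_mul 2)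

lemma const {g : E → ℝ} (hg : MemLp g 2 (volume : Measure E)) : L2t (fun _ => g) g :=
  ⟨fun _ => hg, hg, by simp [nsq]⟩

lemma neg (h : L2t f g) : L2t (fun n x => - f n x) (fun x => - g x) := by
  have := h.bmul (w := fun _ => (-1 : ℝ)) aestronglyMeasurable_const (B := 1) (by simp)
  simpa using this

lemma sub (h : L2t f g) (h' : L2t f' g') :
    L2t (fun n x => f n x - f' n x) (fun x => g x - g' x) := by
  have := h.add h'.neg
  simpa [sub_eq_add_neg] using this

lemma sum {ι : Type*} {s : Finset ι} {f : ι → ℕ → E → ℝ} {g : ι → E → ℝ}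
    (h : ∀ i ∈ s, L2t (f i) (g i)) :
    L2t (fun n x => ∑ i ∈ s, f i n x) (fun x => ∑ i ∈ s, g i x) := by
  classical
  induction s using Finset.induction_on with
  | empty => simpa using L2t.const (MemLp.zero' (p := 2) (μ := (volume : Measure E)) (ε := ℝ))
  | insert a s ha ih =>
    simp only [Finset.sum_insert ha]
    exact (h a (Finset.mem_insert_self _ _)).add
      (ih fun i hi => h i (Finset.mem_insert_of_mem hi))

end L2t

/-- the mollifier sequence -/
noncomputable def seqM (k : ℕ) : E → ℝ := stdM (1 / ((k : ℝ) + 1))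

lemma seqM_isMol (k : ℕ) : IsMol (1 / ((k : ℝ) + 1)) (seqM k : E → ℝ) := stdM_isMol (by positivity)

/-- mollification converges -/
lemma L2t.moll {f : E → ℝ} (hf : MemLp f 2 (volume : Measure E)) :
    L2t (fun k => mo (seqM k) f) f := by
  refine ⟨fun k => (nsq_mo_le (seqM_isMol k) hf).1, hf, ?_⟩
  rw [Metric.tendsto_atTop]
  intro δ hδ
  obtain ⟨ε₀, hε₀, h⟩ := mo_approx hf (show 0 < δ / 2 by positivity)
  obtain ⟨N, hN⟩ := exists_nat_one_div_lt hε₀
  refine ⟨N, fun k hk => ?_⟩
  have h1 : 1 / ((k : ℝ) + 1) ≤ ε₀ := by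
    refine le_trans ?_ hN.le
    gcongr
  have h2 := h _ h1 (seqM k) (seqM_isMol k)
  rw [Real.dist_eq, sub_zero, abs_of_nonneg (nsq_nonneg _)]
  linarith

end Vale.Agent.P284.H359.Moll
end
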