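import Vale.Agent.P284.H359.Fried2
import Vale.Agent.P284.H894.V.Spec
import Vale.Agent.P272.K.C2.Mat

/-!
# P284, V6: the real coefficients of the Kähler Laplacian
-/

set_option linter.all false

open scoped Manifold ContDiff Topology Pointwise ComplexConjugate ComplexOrder
open Filter Set Metric MeasureTheory

noncomputable section

namespace Vale.Agent.P284.H359.V

open Vale.Agent.P272.K Vale.Agent.P272.K.C2 Vale.Agent.P284.H894.V Vale.Agent.P284.H359.Fr

variable {n : ℕ} {U : Set (Cm n)} {w : Cm n → Matrix (Fin n) (Fin n) ℂ} {z : Cm n}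

/-- the real directions -/
def ev (a : Fin n × Bool) : Cm n := Pi.single a.1 (if a.2 then Complex.I else 1)

lemma norm_ev (a : Fin n × Bool) : ‖(ev a : Cm n)‖ ≤ 1 := by
  unfold ev
  rw [Pi.norm_single]
  split <;> simp

/-- the real form of a complex number -/
def cf (q : ℂ) (α β : Bool) : ℝ := if α = β then q.re else if α then q.im else -q.im

/-- `det(w) w⁻¹` -/
def cc (w : Cm n → Matrix (Fin n) (Fin n) ℂ) (y : Cm n) (k j : Fin n) : ℂ :=
  (w y).det * (w y)⁻¹ k j

/-- the real coefficients -/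
def A0 (w : Cm n → Matrix (Fin n) (Fin n) ℂ) (y : Cm n) (a b : Fin n × Bool) : ℝ :=
  cf (cc w y b.1 a.1) a.2 b.2 / 4

lemma det_real (hw : KU U w) (hz : z ∈ U) : ((w z).det.re : ℂ) = (w z).det := by
  have h := (hw.pos z hz).det_pos
  rw [Complex.pos_iff] at h
  exact Complex.ext (by simp) (by simp [← h.2])

lemma inv_herm (hw : KU U w) (hz : z ∈ U) (j k : Fin n) :
    conj ((w z)⁻¹ j k) = (w z)⁻¹ k j := by
  have h := (hw.pos z hz).inv.isHermitian
  have h2 := congrFun (congrFun h k) j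
  rw [Matrix.conjTranspose_apply] at h2
  exact h2

lemma cc_herm (hw : KU U w) (hz : z ∈ U) (j k : Fin n) : conj (cc w z j k) = cc w z k j := by
  unfold cc
  rw [map_mul, inv_herm hw hz, ← det_real hw hz, Complex.conj_ofReal]

lemma A0_symm (hw : KU U w) (hz : z ∈ U) (a b : Fin n × Bool) : A0 w z a b = A0 w z b a := by
  obtain ⟨j, α⟩ := a
  obtain ⟨k, β⟩ := b
  have h := cc_herm hw hz k j
  have h1 : (cc w z j k).re = (cc w z k j).re := by rw [← h]; simp
  have h2 : (cc w z j k).im = -(cc w z k j).im := by rw [← h]; simp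
  unfold A0 cf
  cases α <;> cases β <;> simp [h1, h2]

lemma cc_smooth (hw : KU U w) (hz : z ∈ U) (k j : Fin n) :
    ContDiffAt ℝ ∞ (fun y => cc w y k j) z := by
  have h0 : (w z).det ≠ 0 := (hw.pos z hz).det_pos.ne'
  have h1 : MC ∞ w z := fun i j => hw.smooth z hz i j
  exact h1.det.mul (h1.inv h0 k j)

lemma A0_smooth (hw : KU U w) (hz : z ∈ U) (a b : Fin n × Bool) :
    ContDiffAt ℝ ∞ (fun y => A0 w y a b) z := by
  have h := cc_smooth hw hz b.1 a.1
  have hre : ContDiffAt ℝ ∞ (fun y => (cc w y b.1 a.1).re) z :=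
    Complex.reCLM.contDiff.contDiffAt.comp z h
  have him : ContDiffAt ℝ ∞ (fun y => (cc w y b.1 a.1).im) z :=
    Complex.imCLM.contDiff.contDiffAt.comp z h
  unfold A0 cf
  obtain ⟨j, α⟩ := a
  obtain ⟨k, β⟩ := b
  cases α <;> cases β <;> simp only [if_true, if_false, reduceCtorEq, Bool.false_eq_true,
    Bool.true_eq_false] <;> first | exact hre.div_const 4 | exact him.div_const 4 | exact him.neg.div_const 4

lemma vol_smooth (hw : KU U w) (hz : z ∈ U) : ContDiffAt ℝ ∞ (vol w) z := by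
  have h1 : MC ∞ w z := fun i j => hw.smooth z hz i j
  exact Complex.reCLM.contDiff.contDiffAt.comp z h1.det

/-- the quadratic form -/
lemma form (q : ℂ) (f g h k : ℝ) :
    (q * ((f - Complex.I * g) / 2) * ((h + Complex.I * k) / 2)).re =
      cf q false false / 4 * f * h + cf q false true / 4 * f * k
        + (cf q true false / 4 * g * h + cf q true true / 4 * g * k) := by
  have e : q * ((f - Complex.I * g) / 2) * ((h + Complex.I * k) / 2) =
      q * ((f * h + g * k : ℝ) + Complex.I * (f * k - g * h : ℝ)) / 4 := by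
    push_cast
    linear_combination (-q * g * k / 4) * Complex.I_mul_I
  rw [e]
  simp [cf]
  ring

lemma sum_split (F : Fin n × Bool → Fin n × Bool → ℝ) :
    ∑ a, ∑ b, F a b = ∑ j, ∑ k, (F (j, false) (k, false) + F (j, false) (k, true)
      + (F (j, true) (k, false) + F (j, true) (k, true))) := by
  rw [Fintype.sum_prod_type]
  refine Finset.sum_congr rfl fun j _ => ?_
  rw [Fintype.sum_bool, Fintype.sum_prod_type, Fintype.sum_prod_type, ← Finset.sum_add_distrib]
  refine Finset.sum_congr rfl fun k _ => ?_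
  rw [Fintype.sum_bool, Fintype.sum_bool]
  ring

lemma fderiv_coe {f : Cm n → ℝ} (hf : DifferentiableAt ℝ f z) (v : Cm n) :
    fderiv ℝ (fun y => (f y : ℂ)) z v = ((fderiv ℝ f z v : ℝ) : ℂ) := by
  have h := (Complex.ofRealCLM.hasFDerivAt.comp z hf.hasFDerivAt).fderiv
  have h2 : fderiv ℝ (fun y => (f y : ℂ)) z = _ := h
  rw [h2]
  rfl

lemma dz_coe {f : Cm n → ℝ} (hf : DifferentiableAt ℝ f z) (j : Fin n) :
    dz j (fun y => (f y : ℂ)) z =
      ((pd (ev (j, false)) f z : ℂ) - Complex.I * (pd (ev (j, true)) f z : ℂ)) / 2 := by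
  unfold dz pd ev
  rw [fderiv_coe hf, fderiv_coe hf]
  simp

lemma dzb_coe {f : Cm n → ℝ} (hf : DifferentiableAt ℝ f z) (j : Fin n) :
    dzb j (fun y => (f y : ℂ)) z =
      ((pd (ev (j, false)) f z : ℂ) + Complex.I * (pd (ev (j, true)) f z : ℂ)) / 2 := by
  unfold dzb pd ev
  rw [fderiv_coe hf, fderiv_coe hf]
  simp

lemma gr_eq (hw : KU U w) (hz : z ∈ U) {f h : Cm n → ℝ} (hf : DifferentiableAt ℝ f z)
    (hh : DifferentiableAt ℝ h z) :
    gr w f h z * vol w z = ∑ a, ∑ b, A0 w z a b * pd (ev a) f z * pd (ev b) h z := by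
  rw [sum_split]
  unfold gr vol
  rw [Complex.re_sum, Finset.sum_mul]
  refine Finset.sum_congr rfl fun j _ => ?_
  rw [Complex.re_sum, Finset.sum_mul]
  refine Finset.sum_congr rfl fun k _ => ?_
  rw [dz_coe hf, dzb_coe hh]
  have h1 := form (cc w z k j) (pd (ev (j, false)) f z) (pd (ev (j, true)) f z)
    (pd (ev (k, false)) h z) (pd (ev (k, true)) h z)
  unfold A0
  simp only []
  rw [← h1]
  have e : cc w z k j * (((pd (ev (j, false)) f z : ℂ) - Complex.I * (pd (ev (j, true)) f z : ℂ)) / 2) *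
      (((pd (ev (k, false)) h z : ℂ) + Complex.I * (pd (ev (k, true)) h z : ℂ)) / 2) =
      ((w z).det.re : ℂ) * ((w z)⁻¹ k j * (((pd (ev (j, false)) f z : ℂ) - Complex.I * (pd (ev (j, true)) f z : ℂ)) / 2) *
      (((pd (ev (k, false)) h z : ℂ) + Complex.I * (pd (ev (k, true)) h z : ℂ)) / 2)) := by
    rw [det_real hw hz]
    unfold cc
    ring
  rw [e, Complex.re_ofReal_mul]
  ring

lemma dz_lin {u v : Cm n → ℝ} (hu : DifferentiableAt ℝ u z) (hv : DifferentiableAt ℝ v z)
    (j : Fin n) : dz j (fun y => ((u y : ℂ) + Complex.I * (v y : ℂ)) / 2) z =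
      (dz j (fun y => (u y : ℂ)) z + Complex.I * dz j (fun y => (v y : ℂ)) z) / 2 := by
  have e : (fun y => ((u y : ℂ) + Complex.I * (v y : ℂ)) / 2) =
      fun y => (1 / 2 : ℂ) * ((u y : ℂ) + Complex.I * (v y : ℂ)) := by
    funext y; ring
  have hu' := differentiableAt_ofReal hu
  have hv' := differentiableAt_ofReal hv
  have h1 : DifferentiableAt ℝ (fun y => (u y : ℂ) + Complex.I * (v y : ℂ)) z :=
    hu'.add (hv'.const_mul _)
  rw [e, dz_const_mul _ _ h1, dz_add _ hu' (hv'.const_mul _), dz_const_mul _ _ hv']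
  ring

lemma lap_eq (hw : KU U w) (hz : z ∈ U) {F : Cm n → ℝ} (hF : ContDiff ℝ ∞ F) :
    lap w F z * vol w z = ∑ a, ∑ b, A0 w z a b * pd (ev a) (pd (ev b) F) z := by
  rw [sum_split]
  unfold lap vol
  have hd : ∀ v, ContDiff ℝ ∞ (pd v F) := fun v =>
    ContDiff.clm_apply (hF.fderiv_right (m := (⊤ : ℕ∞)) (by simp)) contDiff_const
  have hd1 : ∀ v, DifferentiableAt ℝ (pd v F) z := fun v => (hd v).differentiable (by simp) z
  have hH : ∀ j k, cHess F z j k =
      (dz j (fun y => (pd (ev (k, false)) F y : ℂ)) z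
        + Complex.I * dz j (fun y => (pd (ev (k, true)) F y : ℂ)) z) / 2 := by
    intro j k
    have e : dzb k (fun y => (F y : ℂ)) = fun y =>
        ((pd (ev (k, false)) F y : ℂ) + Complex.I * (pd (ev (k, true)) F y : ℂ)) / 2 := by
      funext y
      exact dzb_coe (hF.differentiable (by simp) y) k
    show dz j (dzb k (fun y => (F y : ℂ))) z = _
    rw [e, dz_lin (hd1 _) (hd1 _)]
  rw [Matrix.trace, Complex.re_sum]
  simp only [Matrix.diag_apply, Matrix.mul_apply, Complex.re_sum]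
  rw [Finset.sum_comm, Finset.sum_mul]
  refine Finset.sum_congr rfl fun j _ => ?_
  rw [Finset.sum_mul]
  refine Finset.sum_congr rfl fun k _ => ?_
  rw [hH, dz_coe (hd1 _), dz_coe (hd1 _)]
  have e : cc w z k j * (((((pd (ev (j, false)) (pd (ev (k, false)) F) z : ℂ)
        - Complex.I * (pd (ev (j, true)) (pd (ev (k, false)) F) z : ℂ)) / 2)
        + Complex.I * (((pd (ev (j, false)) (pd (ev (k, true)) F) z : ℂ)
        - Complex.I * (pd (ev (j, true)) (pd (ev (k, true)) F) z : ℂ)) / 2)) / 2) =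
      ((w z).det.re : ℂ) * ((w z)⁻¹ k j * (((((pd (ev (j, false)) (pd (ev (k, false)) F) z : ℂ)
        - Complex.I * (pd (ev (j, true)) (pd (ev (k, false)) F) z : ℂ)) / 2)
        + Complex.I * (((pd (ev (j, false)) (pd (ev (k, true)) F) z : ℂ)
        - Complex.I * (pd (ev (j, true)) (pd (ev (k, true)) F) z : ℂ)) / 2)) / 2)) := by
    rw [det_real hw hz]
    unfold cc
    ring
  have e2 := congrArg Complex.re e
  rw [Complex.re_ofReal_mul, mul_comm ((w z).det.re)] at e2
  rw [← e2]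
  unfold A0 cf
  simp
  ring

end Vale.Agent.P284.H359.V
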