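import Vale.Agent.P284.H359.Fried3
import Vale.Agent.P284.H359.V6a

/-!
# P284, theorem V, block V6: the local Friedrichs inequality
-/

set_option linter.all false

open scoped Manifold ContDiff Topology Pointwise ComplexConjugate ComplexOrder
open Filter Set Metric MeasureTheory

noncomputable section

namespace Vale.Agent.P284.H359.V

open Vale.Agent.P272.K Vale.Agent.P272.K.C2 Vale.Agent.P284.H894.V Vale.Agent.P284.H359.Fr

variable {n : ℕ} {U : Set (Cm n)} {w : Cm n → Matrix (Fin n) (Fin n) ℂ} {z : Cm n}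

/-! ### The Piola identity -/

lemma piola (hw : KU U w) (hz : z ∈ U) (k : Fin n) :
    ∑ j, dz j (fun y => cc w y k j) z = 0 := by
  have h0 : (w z).det ≠ 0 := (hw.pos z hz).det_pos.ne'
  have h1 : MC ∞ w z := fun i j => hw.smooth z hz i j
  have hdet : DifferentiableAt ℝ (fun y => (w y).det) z := h1.det.differentiableAt (by simp)
  have hinv : ∀ j, DifferentiableAt ℝ (fun y => (w y)⁻¹ k j) z := fun j =>
    (h1.inv h0 k j).differentiableAt (by simp)
  have hI : ∀ j, dz j (fun y => (w y)⁻¹ k j) z = -((w z)⁻¹ * DM j w z * (w z)⁻¹) k j := by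
    intro j
    have := DM_inv (k := j) (h1.mono (by simp)) h0
    have h2 := congrFun (congrFun this k) j
    rw [DM_apply] at h2
    exact h2
  have hD : ∀ j, dz j (fun y => (w y).det) z = (w z).det * ((w z)⁻¹ * DM j w z).trace := fun j =>
    dz_det (h1.md (by simp)) h0
  have e : ∀ j, dz j (fun y => cc w y k j) z = (w z).det *
      (((w z)⁻¹ * DM j w z).trace * (w z)⁻¹ k j - ((w z)⁻¹ * DM j w z * (w z)⁻¹) k j) := by
    intro j
    unfold cc
    rw [dz_mul _ hdet (hinv j), hI, hD]
    ring
  simp only [e]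
  rw [← Finset.mul_sum, Finset.sum_sub_distrib]
  have e2 : ∑ j, ((w z)⁻¹ * DM j w z).trace * (w z)⁻¹ k j =
      ∑ j, ∑ p, ∑ q, (w z)⁻¹ p q * dz j (fun y => w y q p) z * (w z)⁻¹ k j := by
    refine Finset.sum_congr rfl fun j _ => ?_
    rw [Matrix.trace, Finset.sum_mul]
    refine Finset.sum_congr rfl fun p _ => ?_
    rw [Matrix.diag_apply, Matrix.mul_apply, Finset.sum_mul]
    rfl
  have e3 : ∑ j, ((w z)⁻¹ * DM j w z * (w z)⁻¹) k j =
      ∑ j, ∑ p, ∑ q, (w z)⁻¹ k q * dz j (fun y => w y q p) z * (w z)⁻¹ p j := by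
    refine Finset.sum_congr rfl fun j _ => ?_
    rw [Matrix.mul_apply]
    refine Finset.sum_congr rfl fun p _ => ?_
    rw [Matrix.mul_apply, Finset.sum_mul]
    rfl
  have e4 : ∑ j, ∑ p, ∑ q, (w z)⁻¹ k q * dz j (fun y => w y q p) z * (w z)⁻¹ p j =
      ∑ j, ∑ p, ∑ q, (w z)⁻¹ p q * dz j (fun y => w y q p) z * (w z)⁻¹ k j := by
    have s1 : ∀ j p q, (w z)⁻¹ k q * dz j (fun y => w y q p) z * (w z)⁻¹ p j =
        (w z)⁻¹ k q * dz q (fun y => w y j p) z * (w z)⁻¹ p j := by
      intro j p q
      rw [hw.closed z hz q p j]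
    simp only [s1]
    -- exchange `j` and `q`
    calc ∑ j, ∑ p, ∑ q, (w z)⁻¹ k q * dz q (fun y => w y j p) z * (w z)⁻¹ p j
        = ∑ j, ∑ q, ∑ p, (w z)⁻¹ k q * dz q (fun y => w y j p) z * (w z)⁻¹ p j :=
          Finset.sum_congr rfl fun j _ => Finset.sum_comm
      _ = ∑ q, ∑ j, ∑ p, (w z)⁻¹ k q * dz q (fun y => w y j p) z * (w z)⁻¹ p j :=
          Finset.sum_comm
      _ = ∑ q, ∑ p, ∑ j, (w z)⁻¹ k q * dz q (fun y => w y j p) z * (w z)⁻¹ p j :=
          Finset.sum_congr rfl fun q _ => Finset.sum_comm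
      _ = _ := Finset.sum_congr rfl fun q _ => Finset.sum_congr rfl fun p _ =>
          Finset.sum_congr rfl fun j _ => by ring
  rw [e2, e3, e4, sub_self, mul_zero]

lemma fderiv_re {q : Cm n → ℂ} (hq : DifferentiableAt ℝ q z) (v : Cm n) :
    fderiv ℝ (fun y => (q y).re) z v = (fderiv ℝ q z v).re := by
  have h := (Complex.reCLM.hasFDerivAt.comp z hq.hasFDerivAt).fderiv
  have h2 : fderiv ℝ (fun y => (q y).re) z = _ := h
  rw [h2]
  rfl

lemma fderiv_im {q : Cm n → ℂ} (hq : DifferentiableAt ℝ q z) (v : Cm n) :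
    fderiv ℝ (fun y => (q y).im) z v = (fderiv ℝ q z v).im := by
  have h := (Complex.imCLM.hasFDerivAt.comp z hq.hasFDerivAt).fderiv
  have h2 : fderiv ℝ (fun y => (q y).im) z = _ := h
  rw [h2]
  rfl

lemma piola_real (hw : KU U w) (hz : z ∈ U) (b : Fin n × Bool) :
    ∑ a, pd (ev a) (fun y => A0 w y a b) z = 0 := by
  obtain ⟨k, β⟩ := b
  have hp := piola hw hz k
  have hq : ∀ j, DifferentiableAt ℝ (fun y => cc w y k j) z := fun j =>
    (cc_smooth hw hz k j).differentiableAt (by simp)
  have hre : ∀ j, DifferentiableAt ℝ (fun y => (cc w y k j).re) z := fun j =>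
    Complex.reCLM.differentiableAt.comp z (hq j)
  have him : ∀ j, DifferentiableAt ℝ (fun y => (cc w y k j).im) z := fun j =>
    Complex.imCLM.differentiableAt.comp z (hq j)
  rw [Fintype.sum_prod_type]
  simp only [Fintype.sum_bool]
  cases β
  · have e : ∀ j, pd (ev (j, true)) (fun y => A0 w y (j, true) (k, false)) z
        + pd (ev (j, false)) (fun y => A0 w y (j, false) (k, false)) z =
        (dz j (fun y => cc w y k j) z).re / 2 := by
      intro j
      have a1 : (fun y => A0 w y (j, true) (k, false)) = fun y => (4 : ℝ)⁻¹ * (cc w y k j).im := by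
        funext y; simp [A0, cf]; ring
      have a2 : (fun y => A0 w y (j, false) (k, false)) = fun y => (4 : ℝ)⁻¹ * (cc w y k j).re := by
        funext y; simp [A0, cf]; ring
      unfold pd
      rw [a1, a2, fderiv_const_mul (him j), fderiv_const_mul (hre j)]
      simp only [smul_apply, smul_eq_mul]
      rw [fderiv_re (hq j), fderiv_im (hq j)]
      unfold dz ev
      simp
      ring
    simp only [e]
    rw [← Finset.sum_div, ← Complex.re_sum, hp]
    simp
  · have e : ∀ j, pd (ev (j, true)) (fun y => A0 w y (j, true) (k, true)) z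
        + pd (ev (j, false)) (fun y => A0 w y (j, false) (k, true)) z =
        -((dz j (fun y => cc w y k j) z).im / 2) := by
      intro j
      have a1 : (fun y => A0 w y (j, true) (k, true)) = fun y => (4 : ℝ)⁻¹ * (cc w y k j).re := by
        funext y; simp [A0, cf]; ring
      have a2 : (fun y => A0 w y (j, false) (k, true)) = fun y => (-4 : ℝ)⁻¹ * (cc w y k j).im := by
        funext y; simp [A0, cf]; ring
      unfold pd
      rw [a1, a2, fderiv_const_mul (hre j), fderiv_const_mul (him j)]
      simp only [smul_apply, smul_eq_mul]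
      rw [fderiv_re (hq j), fderiv_im (hq j)]
      unfold dz ev
      simp
      ring
    simp only [e]
    rw [Finset.sum_neg_distrib, ← Finset.sum_div, ← Complex.im_sum, hp]
    simp

/-! ### Ellipticity -/

lemma A0_pos (hw : KU U w) (hz : z ∈ U) (v : Fin n × Bool → ℝ) (hv : v ≠ 0) :
    0 < ∑ a, ∑ b, A0 w z a b * v a * v b := by
  set u : Fin n → ℂ := fun j => (v (j, false) : ℂ) - Complex.I * (v (j, true) : ℂ) with hu
  have hu0 : u ≠ 0 := by
    intro h
    apply hv
    funext ⟨j, α⟩
    have h1 := congrFun h j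
    simp only [hu, Pi.zero_apply] at h1
    have hr := congrArg Complex.re h1
    have hi := congrArg Complex.im h1
    simp at hr hi
    cases α
    · simpa using hr
    · simpa using hi
  have hpos := (hw.pos z hz).inv.re_dotProduct_pos hu0
  have hdet := (hw.pos z hz).det_pos
  rw [Complex.pos_iff] at hdet
  rw [sum_split]
  have e : ∑ j, ∑ k, (A0 w z (j, false) (k, false) * v (j, false) * v (k, false)
      + A0 w z (j, false) (k, true) * v (j, false) * v (k, true)
      + (A0 w z (j, true) (k, false) * v (j, true) * v (k, false)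
      + A0 w z (j, true) (k, true) * v (j, true) * v (k, true))) =
      (w z).det.re / 4 * (RCLike.re (star u ⬝ᵥ (w z)⁻¹.mulVec u)) := by
    have s1 : (w z).det.re / 4 * (RCLike.re (star u ⬝ᵥ (w z)⁻¹.mulVec u)) =
        ∑ j, ∑ k, (cc w z k j * ((((v (j, false) : ℝ) : ℂ) - Complex.I * (v (j, true) : ℂ)) / 2)
          * ((((v (k, false) : ℝ) : ℂ) + Complex.I * (v (k, true) : ℂ)) / 2)).re := by
      have s2 : star u ⬝ᵥ (w z)⁻¹.mulVec u = ∑ j, ∑ k, (w z)⁻¹ k j * u j * conj (u k) := by
        rw [Finset.sum_comm]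
        simp only [dotProduct, Matrix.mulVec]
        refine Finset.sum_congr rfl fun k _ => ?_
        rw [Finset.mul_sum]
        refine Finset.sum_congr rfl fun j _ => ?_
        rw [Pi.star_apply]
        simp only [RCLike.star_def]
        ring
      rw [s2]
      simp only [RCLike.re_to_complex, Complex.re_sum]
      rw [Finset.mul_sum]
      refine Finset.sum_congr rfl fun j _ => ?_
      rw [Finset.mul_sum]
      refine Finset.sum_congr rfl fun k _ => ?_
      have s3 : cc w z k j * ((((v (j, false) : ℝ) : ℂ) - Complex.I * (v (j, true) : ℂ)) / 2)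
          * ((((v (k, false) : ℝ) : ℂ) + Complex.I * (v (k, true) : ℂ)) / 2) =
          (((w z).det.re / 4 : ℝ) : ℂ) * ((w z)⁻¹ k j * u j * conj (u k)) := by
        have s4 : conj (u k) = (v (k, false) : ℂ) + Complex.I * (v (k, true) : ℂ) := by
          simp only [hu, map_sub, map_mul, Complex.conj_ofReal, Complex.conj_I]
          ring
        rw [s4]
        unfold cc
        simp only [hu]
        push_cast
        rw [det_real hw hz]
        ring
      rw [s3, Complex.re_ofReal_mul]
    rw [s1]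
    refine Finset.sum_congr rfl fun j _ => Finset.sum_congr rfl fun k _ => ?_
    rw [form]
    unfold A0
    simp only []
  rw [e]
  exact mul_pos (by linarith [hdet.1]) hpos

/-! ### The block -/

theorem v6Stmt : V6Stmt := by
  intro n c R R' hR hRR' w hw g l hl hg heq ζ hζ
  have hsub : ball c R ⊆ ball c R' := ball_subset_ball hRR'.le
  have hwR : KU (ball c R) w := ⟨isOpen_ball, fun z hz => hw.smooth z (hsub hz),
    fun z hz => hw.pos z (hsub hz), fun z hz => hw.closed z (hsub hz)⟩
  -- the cut-off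
  obtain ⟨χ, hχR⟩ : ∃ χ : ContDiffBump c, χ.rIn = R ∧ χ.rOut = (R + R') / 2 :=
    ⟨⟨R, (R + R') / 2, hR, by linarith⟩, rfl, rfl⟩
  have hχ1 : ∀ z ∈ ball c R, χ z = 1 := fun z hz => χ.one_of_mem_closedBall (by
    rw [hχR.1]; exact ball_subset_closedBall hz)
  have hχs : tsupport χ ⊆ ball c R' := by
    rw [χ.tsupport_eq, hχR.2]
    exact closedBall_subset_ball (by linarith)
  have hcut : ∀ F : Cm n → ℝ, (∀ z ∈ ball c R', ContDiffAt ℝ ∞ F z) →
      Test (fun z => χ z * F z) := by
    intro F hF
    refine ⟨contDiff_iff_contDiffAt.2 fun z => ?_, χ.hasCompactSupport.mul_right⟩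
    by_cases hz : z ∈ tsupport χ
    · exact χ.contDiffAt.mul (hF z (hχs hz))
    · have h1 : (fun z => χ z * F z) =ᶠ[𝓝 z] fun _ => (0 : ℝ) := by
        have h2 : (χ : Cm n → ℝ) =ᶠ[𝓝 z] 0 := notMem_tsupport_iff_eventuallyEq.1 hz
        filter_upwards [h2] with y hy
        rw [hy]
        simp
      exact contDiffAt_const.congr_of_eventuallyEq h1
  obtain ⟨A, hA⟩ : ∃ A : Cm n → Fin n × Bool → Fin n × Bool → ℝ,
      ∀ x a b, A x a b = χ x * A0 w x a b := ⟨_, fun _ _ _ => rfl⟩
  have hAT : ∀ a b, Test (fun x => A x a b) := by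
    intro a b
    have h1 := hcut _ (fun z hz => A0_smooth hw hz a b)
    have h2 : (fun x => A x a b) = fun x => χ x * A0 w x a b := by funext x; exact hA x a b
    rw [h2]
    exact h1
  have hAs : ∀ x a b, A x a b = A x b a := by
    intro x a b
    rw [hA, hA]
    by_cases hx : x ∈ ball c R'
    · rw [A0_symm hw hx]
    · have h1 : χ x = 0 := image_eq_zero_of_notMem_tsupport fun h => hx (hχs h)
      rw [h1, zero_mul, zero_mul]
  have D := Dat.mk' (e := (ev : Fin n × Bool → Cm n)) norm_ev hAT hAs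
  have hAR : ∀ x ∈ ball c R, ∀ a b, A x a b = A0 w x a b := by
    intro x hx a b
    rw [hA, hχ1 x hx, one_mul]
  have hb : ∀ x ∈ ball c R, ∀ j, (-∑ i, pd (ev i) (fun y => A y i j) x) = 0 := by
    intro x hx j
    have h1 : ∀ i, pd (ev i) (fun y => A y i j) x = pd (ev i) (fun y => A0 w y i j) x := by
      intro i
      unfold pd
      have h2 : (fun y => A y i j) =ᶠ[𝓝 x] fun y => A0 w y i j := by
        filter_upwards [isOpen_ball.mem_nhds hx] with y hy
        exact hAR y hy i j
      rw [h2.fderiv_eq]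
    simp only [h1]
    rw [piola_real hwR hx j, neg_zero]
  obtain ⟨m, hm, hlow⟩ := unif_ell hζ.compact.isCompact (A0 w)
    (fun i j z hz => (A0_smooth hwR (hζ.supp hz) i j).continuousAt.continuousWithinAt)
    (fun z hz v hv => A0_pos hwR (hζ.supp hz) v hv)
  have hlow' : ∀ x ∈ tsupport ζ, ∀ v : Fin n × Bool → ℝ,
      m * ∑ i, v i ^ 2 ≤ ∑ i, ∑ j, A x i j * v i * v j := by
    intro x hx v
    have h1 := hlow x hx v
    simp only [hAR x (hζ.supp hx)]
    exact h1
  have hf : MemLp ((ball c R).indicator g) 2 (volume : Measure (Cm n)) :=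
    (memLp_indicator_iff_restrict measurableSet_ball).2 hg
  have hfc : HasCompactSupport ((ball c R).indicator g) :=
    HasCompactSupport.intro (isCompact_closedBall c R) fun x hx =>
      Set.indicator_of_notMem (fun h => hx (ball_subset_closedBall h)) _
  have hr : Test (fun z => χ z * (l * vol w z)) :=
    hcut _ (fun z hz => contDiffAt_const.mul (vol_smooth hw hz))
  have heq' : ∀ F : Cm n → ℝ, Test F → tsupport F ⊆ ball c R →
      ∫ x, (ball c R).indicator g x * ((χ x * (l * vol w x)) * F x
        - (∑ i, ∑ j, A x i j * pd (ev i) (pd (ev j) F) x)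
        + ∑ j, (-∑ i, pd (ev i) (fun y => A y i j) x) * pd (ev j) F x) = 0 := by
    intro F hF hFs
    have h := heq F ⟨hF.1, hF.2, hFs⟩
    rw [← h, ← integral_indicator measurableSet_ball]
    refine integral_congr_ae (Eventually.of_forall fun x => ?_)
    by_cases hx : x ∈ ball c R
    · simp only [Set.indicator_of_mem hx, hb x hx, zero_mul, Finset.sum_const_zero, add_zero,
        hχ1 x hx, one_mul, hAR x hx]
      rw [← lap_eq hwR hx hF.1]
      ring
    · simp only [Set.indicator_of_notMem hx, zero_mul]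
  have key := local_ineq D hr.1.continuous hr.2 hm (ζ := ζ) ⟨hζ.smooth, hζ.compact⟩ hlow' hf hfc
    isOpen_ball hζ.supp heq'
  have e1 : ∫ x, ((ball c R).indicator g x * (χ x * (l * vol w x))) *
      (ζ x ^ 2 * (ball c R).indicator g x) =
      l * ∫ z in ball c R, ζ z ^ 2 * g z ^ 2 * vol w z := by
    rw [← integral_const_mul, ← integral_indicator measurableSet_ball]
    refine integral_congr_ae (Eventually.of_forall fun x => ?_)
    by_cases hx : x ∈ ball c R
    · simp only [Set.indicator_of_mem hx, hχ1 x hx]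
      ring
    · simp only [Set.indicator_of_notMem hx]
      ring
  have e2 : ∫ x, ((∑ i, ∑ j, A x i j * pd (ev i) ζ x * pd (ev j) ζ x) *
      (ball c R).indicator g x) * (ball c R).indicator g x =
      ∫ z in ball c R, gr w ζ ζ z * g z ^ 2 * vol w z := by
    rw [← integral_indicator measurableSet_ball]
    refine integral_congr_ae (Eventually.of_forall fun x => ?_)
    by_cases hx : x ∈ ball c R
    · have hd : DifferentiableAt ℝ ζ x := hζ.smooth.differentiable (by simp) x
      simp only [Set.indicator_of_mem hx, hAR x hx]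
      rw [← gr_eq hwR hx hd hd]
      ring
    · simp only [Set.indicator_of_notMem hx, mul_zero]
  rw [e1, e2] at key
  exact key

end Vale.Agent.P284.H359.V
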